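import Mathlib

/-!
# Nested coefficient lists and their packing into one integer

`Rep m` is a polynomial in `m` variables with integer coefficients. Substituting powers of a large
base for the variables (`pack`) is a ring homomorphism into `ℤ`; under a bound on the absolute
coefficient sum the integer determines the signs of all coefficients (`nonneg_of_digits`). The
lists are only used in proofs, the kernel only computes with the packed integers.
-/

namespace Vale.Agent.P100.Pack

/-- Polynomials in `m` variables as nested lists. -/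
abbrev Rep : ℕ → Type
  | 0 => ℤ
  | m + 1 => List (Rep m)

/-- Constant. -/
def cst : (m : ℕ) → ℤ → Rep m
  | 0, z => z
  | m + 1, z => [cst m z]

/-- Coefficientwise combination of two lists. -/
def addL {α : Type} (f : α → α → α) : List α → List α → List α
  | [], q => q
  | a :: p, [] => a :: p
  | a :: p, b :: q => f a b :: addL f p q

/-- Sum. -/
def add : (m : ℕ) → Rep m → Rep m → Rep m
  | 0 => fun a b => ((a : ℤ) + b : ℤ)
  | m + 1 => addL (add m)

/-- Product of two lists. -/
def mulL {α : Type} (z : α) (f g : α → α → α) : List α → List α → List α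
  | [], _ => []
  | a :: p, q => addL f (q.map (g a)) (z :: mulL z f g p q)

/-- Product. -/
def mul : (m : ℕ) → Rep m → Rep m → Rep m
  | 0 => fun a b => ((a : ℤ) * b : ℤ)
  | m + 1 => mulL (cst m 0) (add m) (mul m)

/-- Value of a list at `x`. -/
def evL {α R : Type*} [Semiring R] (f : α → R) (x : R) : List α → R
  | [] => 0
  | a :: p => f a + x * evL f x p

/-- Value at a point, in any commutative ring. -/
def ev {R : Type*} [CommRing R] : (m : ℕ) → (ℕ → R) → Rep m → R
  | 0, _ => fun z => ((z : ℤ) : R)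
  | m + 1, x => evL (ev m fun i => x (i + 1)) (x 0)

/-- The absolute coefficient sum. -/
def nrm : (m : ℕ) → Rep m → ℕ
  | 0 => fun z => Int.natAbs z
  | m + 1 => fun p => (List.map (nrm m) p).sum

/-- The degree in variable `i` is at most `D i`. -/
def Fits : (m : ℕ) → (ℕ → ℕ) → Rep m → Prop
  | 0, _ => fun _ => True
  | m + 1, D => fun p => List.length p ≤ D 0 + 1 ∧ ∀ a ∈ p, Fits m (fun i => D (i + 1)) a

section ring

variable {R : Type*} [CommRing R]

theorem ev_cst : ∀ (m : ℕ) (x : ℕ → R) (z : ℤ), ev m x (cst m z) = z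
  | 0, _, _ => rfl
  | m + 1, x, z => by
    show evL (ev m fun i => x (i + 1)) (x 0) [cst m z] = _
    simp [evL, ev_cst m]

theorem evL_addL {α : Type} {f : α → α → α} {e : α → R} (h : ∀ a b, e (f a b) = e a + e b)
    (x : R) : ∀ p q, evL e x (addL f p q) = evL e x p + evL e x q
  | [], q => by simp [addL, evL]
  | a :: p, [] => by simp [addL, evL]
  | a :: p, b :: q => by simp only [addL, evL, h, evL_addL h x p q]; ring

theorem ev_add : ∀ (m : ℕ) (x : ℕ → R) (a b : Rep m), ev m x (add m a b) = ev m x a + ev m x b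
  | 0, _, a, b => Int.cast_add a b
  | m + 1, x, a, b => evL_addL (ev_add m _) _ a b

theorem evL_map {α : Type} {e : α → R} {g : α → α} {c : R} (h : ∀ b, e (g b) = c * e b) (x : R) :
    ∀ q : List α, evL e x (q.map g) = c * evL e x q
  | [] => by simp [evL]
  | b :: q => by simp only [List.map_cons, evL, h, evL_map h x q]; ring

theorem evL_mulL {α : Type} {z : α} {f g : α → α → α} {e : α → R} (hz : e z = 0)
    (hf : ∀ a b, e (f a b) = e a + e b) (hg : ∀ a b, e (g a b) = e a * e b) (x : R) :
    ∀ p q, evL e x (mulL z f g p q) = evL e x p * evL e x q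
  | [], q => by simp [mulL, evL]
  | a :: p, q => by
    simp only [mulL, evL_addL hf, evL_map (hg a), evL, hz, evL_mulL hz hf hg x p q]; ring

theorem ev_mul : ∀ (m : ℕ) (x : ℕ → R) (a b : Rep m), ev m x (mul m a b) = ev m x a * ev m x b
  | 0, _, a, b => Int.cast_mul a b
  | m + 1, x, a, b =>
    evL_mulL (by rw [ev_cst]; simp) (ev_add m _) (ev_mul m _) _ a b

end ring

theorem nrm_cst : ∀ (m : ℕ) (z : ℤ), nrm m (cst m z) = z.natAbs
  | 0, _ => rfl
  | m + 1, z => by
    show (List.map (nrm m) [cst m z]).sum = _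
    simp [nrm_cst m]

theorem sum_addL {α : Type} {f : α → α → α} {e : α → ℕ} (h : ∀ a b, e (f a b) ≤ e a + e b) :
    ∀ p q : List α, ((addL f p q).map e).sum ≤ (p.map e).sum + (q.map e).sum
  | [], q => by simp [addL]
  | a :: p, [] => by simp [addL]
  | a :: p, b :: q => by
    simp only [addL, List.map_cons, List.sum_cons]
    linarith [h a b, sum_addL h p q]

theorem nrm_add : ∀ (m : ℕ) (a b : Rep m), nrm m (add m a b) ≤ nrm m a + nrm m b
  | 0, a, b => Int.natAbs_add_le a b
  | m + 1, a, b => sum_addL (nrm_add m) a b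

theorem sum_map_le {α : Type} {e : α → ℕ} {g : α → α} {c : ℕ} (h : ∀ b, e (g b) ≤ c * e b) :
    ∀ q : List α, ((q.map g).map e).sum ≤ c * (q.map e).sum
  | [] => by simp
  | b :: q => by
    simp only [List.map_cons, List.sum_cons]
    linarith [h b, sum_map_le h q]

theorem sum_mulL {α : Type} {z : α} {f g : α → α → α} {e : α → ℕ} (hz : e z = 0)
    (hf : ∀ a b, e (f a b) ≤ e a + e b) (hg : ∀ a b, e (g a b) ≤ e a * e b) :
    ∀ p q : List α, ((mulL z f g p q).map e).sum ≤ (p.map e).sum * (q.map e).sum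
  | [], q => by simp [mulL]
  | a :: p, q => by
    have h1 := sum_addL hf (q.map (g a)) (z :: mulL z f g p q)
    simp only [mulL, List.map_cons, List.sum_cons, hz, zero_add] at h1 ⊢
    linarith [sum_map_le (hg a) q, sum_mulL hz hf hg p q]

theorem nrm_mul : ∀ (m : ℕ) (a b : Rep m), nrm m (mul m a b) ≤ nrm m a * nrm m b
  | 0, a, b => (Int.natAbs_mul a b).le
  | m + 1, a, b => sum_mulL (by rw [nrm_cst]; rfl) (nrm_add m) (nrm_mul m) a b

theorem fits_mono : ∀ (m : ℕ) {D D' : ℕ → ℕ}, (∀ i, D i ≤ D' i) → ∀ {a : Rep m},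
    Fits m D a → Fits m D' a
  | 0, _, _, _, _, _ => trivial
  | m + 1, D, D', h, a, ⟨h1, h2⟩ =>
    ⟨h1.trans (by linarith [h 0]), fun b hb => fits_mono m (fun i => h (i + 1)) (h2 b hb)⟩

theorem fits_cst : ∀ (m : ℕ) (D : ℕ → ℕ) (z : ℤ), Fits m D (cst m z)
  | 0, _, _ => trivial
  | m + 1, D, z => ⟨by simp [cst], fun b hb => by
      rw [show b = cst m z from List.mem_singleton.1 hb]; exact fits_cst m _ z⟩

theorem mem_addL {α : Type} {f : α → α → α} {P : α → Prop}
    (h : ∀ a b, P a → P b → P (f a b)) : ∀ {p q : List α}, (∀ a ∈ p, P a) → (∀ a ∈ q, P a) →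
      ∀ a ∈ addL f p q, P a
  | [], q, _, hq => hq
  | a :: p, [], hp, _ => hp
  | a :: p, b :: q, hp, hq => by
    intro c hc
    rcases List.mem_cons.1 hc with rfl | hc
    · exact h a b (hp a List.mem_cons_self) (hq b List.mem_cons_self)
    · exact mem_addL h (fun x hx => hp x (List.mem_cons_of_mem _ hx))
        (fun x hx => hq x (List.mem_cons_of_mem _ hx)) c hc

theorem length_addL {α : Type} (f : α → α → α) :
    ∀ p q : List α, (addL f p q).length = max p.length q.length
  | [], q => by simp [addL]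
  | a :: p, [] => by simp [addL]
  | a :: p, b :: q => by simp [addL, length_addL f p q]

theorem fits_add : ∀ (m : ℕ) {D : ℕ → ℕ} {a b : Rep m}, Fits m D a → Fits m D b →
    Fits m D (add m a b)
  | 0, _, _, _, _, _ => trivial
  | m + 1, D, a, b, ⟨a1, a2⟩, ⟨b1, b2⟩ =>
    ⟨(length_addL _ a b).le.trans (max_le a1 b1),
      mem_addL (fun _ _ => fits_add m) a2 b2⟩

theorem length_mulL {α : Type} (z : α) (f g : α → α → α) :
    ∀ p q : List α, p ≠ [] → (mulL z f g p q).length + 1 ≤ p.length + max q.length 1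
  | [], _, h => absurd rfl h
  | [a], q, _ => by simp [mulL, length_addL]
  | a :: b :: p, q, _ => by
    have := length_mulL z f g (b :: p) q (List.cons_ne_nil _ _)
    simp only [mulL, length_addL, List.length_map, List.length_cons] at this ⊢
    omega

theorem mem_mulL {α : Type} {z : α} {f g : α → α → α} {P Pp Pq : α → Prop} (hz : P z)
    (hf : ∀ a b, P a → P b → P (f a b)) (hg : ∀ a b, Pp a → Pq b → P (g a b)) :
    ∀ {p q : List α}, (∀ a ∈ p, Pp a) → (∀ a ∈ q, Pq a) → ∀ a ∈ mulL z f g p q, P a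
  | [], _, _, _ => by simp [mulL]
  | a :: p, q, hp, hq => by
    refine mem_addL hf (fun c hc => ?_) fun c hc => ?_
    · obtain ⟨b, hb, rfl⟩ := List.mem_map.1 hc
      exact hg a b (hp a List.mem_cons_self) (hq b hb)
    · rcases List.mem_cons.1 hc with rfl | hc
      · exact hz
      · exact mem_mulL hz hf hg (fun x hx => hp x (List.mem_cons_of_mem _ hx)) hq c hc

theorem fits_mul : ∀ (m : ℕ) {D D' : ℕ → ℕ} {a b : Rep m}, Fits m D a → Fits m D' b →
    Fits m (fun i => D i + D' i) (mul m a b)
  | 0, _, _, _, _, _, _ => trivial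
  | m + 1, D, D', a, b, ⟨a1, a2⟩, ⟨b1, b2⟩ => by
    refine ⟨?_, mem_mulL (fits_cst m _ 0) (fun _ _ => fits_add m) (fun _ _ => fits_mul m) a2 b2⟩
    rcases eq_or_ne a [] with h | h
    · simp [h, mul, mulL]
    · have := length_mulL (cst m 0) (add m) (mul m) a b h
      show (mulL (cst m 0) (add m) (mul m) a b).length ≤ D 0 + D' 0 + 1
      omega

/-- Size of the blocks: the packed variable `0` is `2 ^ (K * width m D)`. -/
def width : ℕ → (ℕ → ℕ) → ℕ
  | 0, _ => 1
  | m + 1, D => (D 1 + 1) * width m fun i => D (i + 1)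

/-- The packing point. -/
def base (K m : ℕ) (D : ℕ → ℕ) : ℕ → ℤ
  | 0 => ((2 ^ (K * width (m - 1) D) : ℕ) : ℤ)
  | i + 1 => base K (m - 1) (fun j => D (j + 1)) i

/-- All blocks of the packed integer are small nonnegative numbers. -/
def digits : (m : ℕ) → ℕ → (ℕ → ℕ) → ℕ → Bool
  | 0, _, _, _ => true
  | m + 1, K, D, Z =>
    let X := 2 ^ (K * width m D)
    go (digits m K fun i => D (i + 1)) X (D 0 + 1) Z
where
  /-- The blocks in base `X`. -/
  go (chkd : ℕ → Bool) (X : ℕ) : ℕ → ℕ → Bool
    | 0, Z => Z == 0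
    | k + 1, Z => decide (2 * (Z % X) < X) && chkd (Z % X) && go chkd X k (Z / X)

/-- All coefficients are nonnegative. -/
def Nonneg : (m : ℕ) → Rep m → Prop
  | 0 => fun z => 0 ≤ (z : ℤ)
  | m + 1 => fun p => ∀ a ∈ (p : List (Rep m)), Nonneg m a

theorem abs_ev_le : ∀ (m : ℕ) (K : ℕ) (D : ℕ → ℕ) (a : Rep m), Fits m D a → 1 ≤ K →
    (match m with
      | 0 => |ev 0 (base K 0 D) a| ≤ nrm 0 a
      | k + 1 => |ev (k + 1) (base K (k + 1) D) a| * 2 ^ K ≤
          nrm (k + 1) a * 2 ^ (K * ((D 0 + 1) * width k D)))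
  | 0, K, D, a, _, _ => by
    show |((a : ℤ) : ℤ)| ≤ _
    simp [nrm]
  | m + 1, K, D, a, ⟨h1, h2⟩, hK => by
    have sub : ∀ b : Rep m, Fits m (fun i => D (i + 1)) b →
        |ev m (fun i => base K (m + 1) D (i + 1)) b| * 2 ^ K ≤
          nrm m b * 2 ^ (K * width m D) := by
      intro b hb
      have := abs_ev_le m K (fun i => D (i + 1)) b hb hK
      rcases m with - | k
      · simp only [width, mul_one]
        exact mul_le_mul_of_nonneg_right this (by positivity)
      · exact this
    set X : ℤ := 2 ^ (K * width m D) with hX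
    have hX1 : 1 ≤ X := one_le_pow₀ (by norm_num)
    have key : ∀ (p : List (Rep m)) (L : ℕ), p.length ≤ L + 1 →
        (∀ b ∈ p, Fits m (fun i => D (i + 1)) b) →
        |evL (ev m fun i => base K (m + 1) D (i + 1)) X p| * 2 ^ K ≤
          ((p.map (nrm m)).sum : ℕ) * (X ^ (L + 1)) := by
      intro p
      induction p with
      | nil => intro L _ _; simp [evL]
      | cons b p ih =>
        intro L hL hp
        have hb := sub b (hp b List.mem_cons_self)
        simp only [evL, List.map_cons, List.sum_cons, Nat.cast_add]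
        refine (mul_le_mul_of_nonneg_right (abs_add_le _ _) (by positivity)).trans ?_
        rw [add_mul, add_mul]
        refine add_le_add (hb.trans ?_) ?_
        · refine mul_le_mul_of_nonneg_left ?_ (by positivity)
          exact le_self_pow₀ hX1 (Nat.succ_ne_zero L)
        · rcases L with - | L
          · have : p = [] := List.length_eq_zero_iff.1 (by simp only [List.length_cons] at hL; omega)
            subst this; simp [evL]
          · have := ih L (by simp at hL; omega) fun c hc => hp c (List.mem_cons_of_mem _ hc)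
            rw [abs_mul, abs_of_pos (lt_of_lt_of_le one_pos hX1), pow_succ' X (L + 1),
              mul_assoc, mul_left_comm _ X]
            exact mul_le_mul_of_nonneg_left this (by linarith)
    have := key a (D 0) h1 h2
    rw [← pow_mul] at this
    show |evL (ev m fun i => base K (m + 1) D (i + 1)) X a| * 2 ^ K ≤ _
    rw [show K * ((D 0 + 1) * width m D) = K * width m D * (D 0 + 1) by ring]
    exact this

theorem nonneg_of_go {m K : ℕ} {D : ℕ → ℕ} {chkd : ℕ → Bool}
    (hchk : ∀ b : Rep m, Fits m (fun i => D (i + 1)) b → 2 * nrm m b < 2 ^ K → ∀ Z : ℕ,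
      ev m (fun i => base K (m + 1) D (i + 1)) b = Z → chkd Z = true → Nonneg m b)
    (hK : 1 ≤ K) : ∀ (p : List (Rep m)) (L Z : ℕ), p.length ≤ L →
      (∀ b ∈ p, Fits m (fun i => D (i + 1)) b) → 2 * (p.map (nrm m)).sum < 2 ^ K →
      evL (ev m fun i => base K (m + 1) D (i + 1)) (2 ^ (K * width m D)) p = (Z : ℤ) →
      digits.go chkd (2 ^ (K * width m D)) L Z = true → ∀ b ∈ p, Nonneg m b
  | [], _, _, _, _, _, _, _ => by simp
  | a :: p, 0, _, hL, _, _, _, _ => by simp at hL
  | a :: p, L + 1, Z, hL, hf, hn, he, hg => by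
    set X : ℕ := 2 ^ (K * width m D) with hX
    simp only [digits.go, Bool.and_eq_true, decide_eq_true_eq] at hg
    obtain ⟨⟨g1, g2⟩, g3⟩ := hg
    simp only [List.map_cons, List.sum_cons] at hn
    have hsmall : 2 * |ev m (fun i => base K (m + 1) D (i + 1)) a| < (X : ℤ) := by
      have hb := abs_ev_le m K (fun i => D (i + 1)) a (hf a List.mem_cons_self) hK
      have h2 : (2 * (nrm m a : ℤ)) < 2 ^ K := by
        exact_mod_cast (lt_of_le_of_lt (by omega) hn : 2 * nrm m a < 2 ^ K)
      rcases m with - | k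
      · calc 2 * |ev 0 (fun i => base K (0 + 1) D (i + 1)) a| ≤ 2 * (nrm 0 a : ℤ) :=
              mul_le_mul_of_nonneg_left hb (by norm_num)
          _ < 2 ^ K := h2
          _ = (X : ℤ) := by simp [hX, width]
      · refine lt_of_mul_lt_mul_right ?_ (by positivity : (0 : ℤ) ≤ 2 ^ K)
        calc 2 * |ev (k + 1) (fun i => base K (k + 1 + 1) D (i + 1)) a| * 2 ^ K
            = 2 * (|ev (k + 1) (base K (k + 1) fun i => D (i + 1)) a| * 2 ^ K) := by
              rw [mul_assoc]; rfl
          _ ≤ 2 * ((nrm (k + 1) a : ℤ) * (X : ℤ)) := by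
              refine mul_le_mul_of_nonneg_left (hb.trans (le_of_eq ?_)) (by norm_num)
              rw [hX]; push_cast; rfl
          _ < (X : ℤ) * 2 ^ K := by
              rw [← mul_assoc, mul_comm (X : ℤ)]
              exact mul_lt_mul_of_pos_right h2 (by positivity)
    simp only [evL] at he
    have hX0 : (0 : ℤ) < X := by positivity
    have hcast : ((2 : ℤ) ^ (K * width m D)) = X := by rw [hX]; push_cast; rfl
    rw [hcast] at he
    set e := ev m (fun i => base K (m + 1) D (i + 1)) a
    set r := evL (ev m fun i => base K (m + 1) D (i + 1)) (X : ℤ) p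
    have hdiv : (Z : ℤ) = (Z % X : ℕ) + (X : ℤ) * (Z / X : ℕ) := by
      exact_mod_cast (Nat.mod_add_div Z X).symm
    have hmod : ((Z % X : ℕ) : ℤ) * 2 < X := by exact_mod_cast (by linarith : Z % X * 2 < X)
    obtain ⟨hlo, hhi⟩ := abs_le.1 (le_refl |e|)
    have hq : r = (Z / X : ℕ) := by
      rcases lt_trichotomy r ((Z / X : ℕ) : ℤ) with h | h | h
      · have := mul_le_mul_of_nonneg_left (Int.add_one_le_iff.2 h) hX0.le
        linarith [Int.natCast_nonneg (Z % X)]
      · exact h
      · have := mul_le_mul_of_nonneg_left (Int.add_one_le_iff.2 h) hX0.le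
        linarith
    have hea : e = ((Z % X : ℕ) : ℤ) := by rw [hq] at he; linarith
    intro b hb
    rcases List.mem_cons.1 hb with rfl | hb
    · exact hchk _ (hf _ List.mem_cons_self) (lt_of_le_of_lt (by omega) hn) _ hea g2
    · refine nonneg_of_go hchk hK p L (Z / X) (by simp at hL; omega)
        (fun c hc => hf c (List.mem_cons_of_mem _ hc)) (lt_of_le_of_lt (by linarith) hn) ?_ g3 b hb
      rw [hcast]; exact hq

/-- **Decoding.** If the packed value has small blocks, all coefficients are nonnegative. -/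
theorem nonneg_of_digits : ∀ (m K : ℕ) (D : ℕ → ℕ) (a : Rep m) (Z : ℕ), 1 ≤ K → Fits m D a →
    2 * nrm m a < 2 ^ K → ev m (base K m D) a = (Z : ℤ) → digits m K D Z = true → Nonneg m a
  | 0, K, D, a, Z, _, _, _, he, _ => by
    show 0 ≤ (a : ℤ)
    have : (a : ℤ) = Z := he
    rw [this]; exact Int.natCast_nonneg Z
  | m + 1, K, D, a, Z, hK, ⟨h1, h2⟩, hn, he, hd =>
    nonneg_of_go (fun b hb hbn Z' he' hd' => nonneg_of_digits m K _ b Z' hK hb hbn he' hd') hK a
      (D 0 + 1) Z h1 h2 hn he hd

/-- Nonnegative coefficients give a nonnegative value on the positive orthant. -/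
theorem ev_nonneg : ∀ (m : ℕ) {x : ℕ → ℝ}, (∀ i, 0 ≤ x i) → ∀ {a : Rep m}, Nonneg m a →
    0 ≤ ev m x a
  | 0, _, _, a, h => Int.cast_nonneg h
  | m + 1, x, hx, a, h => by
    show 0 ≤ evL (ev m fun i => x (i + 1)) (x 0) a
    induction a with
    | nil => simp [evL]
    | cons b p ih =>
      exact add_nonneg (ev_nonneg m (fun i => hx (i + 1)) (h b List.mem_cons_self))
        (mul_nonneg (hx 0) (ih fun c hc => h c (List.mem_cons_of_mem _ hc)))

/-- The value at the origin is the least one. -/
theorem ev_zero_le : ∀ (m : ℕ) {x : ℕ → ℝ}, (∀ i, 0 ≤ x i) → ∀ {a : Rep m}, Nonneg m a →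
    ev m (fun _ => 0) a ≤ ev m x a
  | 0, _, _, _, _ => le_refl _
  | m + 1, x, hx, a, h => by
    show evL (ev m fun _ => 0) 0 a ≤ evL (ev m fun i => x (i + 1)) (x 0) a
    rcases a with - | ⟨b, p⟩
    · exact le_refl _
    · simp only [evL, zero_mul, add_zero]
      refine (ev_zero_le m (fun i => hx (i + 1)) (h b List.mem_cons_self)).trans
        (le_add_of_nonneg_right (mul_nonneg (hx 0) ?_))
      exact ev_nonneg (m + 1) (x := x) hx (a := p) (fun c hc => h c (List.mem_cons_of_mem _ hc))

end Vale.Agent.P100.Pack
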