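import Mathlib
import Vale.Agent.P100.Pack.Rep

/-!
# Positivity of an integer polynomial on a box by one packed evaluation

An expression `e` in `m` variables is homogenised by the charts `x = (a + b t) / (c + d t)`. The
kernel evaluates the result once at packing powers of two and reads the coefficient signs from
the blocks of that integer: `pos_of_check` gives `0 < e.eval x` on the box.
-/

namespace Vale.Agent.P100.Pack

/-- A chart `t ↦ (a + b t) / (c + d t)` for one variable. -/
structure Chart where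
  a : ℤ
  b : ℤ
  c : ℤ
  d : ℤ

/-- Integer polynomial expressions. -/
inductive Ex where
  | var : ℕ → Ex
  | num : ℤ → Ex
  | add : Ex → Ex → Ex
  | sub : Ex → Ex → Ex
  | mul : Ex → Ex → Ex
  | pow : Ex → ℕ → Ex

namespace Ex

/-- The value. -/
def eval {R : Type*} [CommRing R] (x : ℕ → R) : Ex → R
  | var i => x i
  | num z => (z : R)
  | add e f => eval x e + eval x f
  | sub e f => eval x e - eval x f
  | mul e f => eval x e * eval x f
  | pow e n => eval x e ^ n

/-- All variables are below `m`. -/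
def ok (m : ℕ) : Ex → Bool
  | var i => decide (i < m)
  | num _ => true
  | add e f => ok m e && ok m f
  | sub e f => ok m e && ok m f
  | mul e f => ok m e && ok m f
  | pow e _ => ok m e

/-- Degree in the variable `j`. -/
def deg : Ex → ℕ → ℕ
  | var i, j => if i = j then 1 else 0
  | num _, _ => 0
  | add e f, j => max (deg e j) (deg f j)
  | sub e f, j => max (deg e j) (deg f j)
  | mul e f, j => deg e j + deg f j
  | pow e n, j => n * deg e j

end Ex

/-- A power, by recursion on the exponent. -/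
def rpow (m : ℕ) (r : Rep m) : ℕ → Rep m
  | 0 => cst m 1
  | k + 1 => mul m (rpow m r k) r

/-- `a + b t i`. -/
def lin : (m : ℕ) → ℕ → ℤ → ℤ → Rep m
  | 0, _, a, _ => a
  | m + 1, 0, a, b => [cst m a, cst m b]
  | m + 1, i + 1, a, b => [lin m i a b]

/-- `∏ i < n, f i`. -/
def prodTo {α : Type*} (one : α) (mulf : α → α → α) (f : ℕ → α) : ℕ → α
  | 0 => one
  | n + 1 => mulf (prodTo one mulf f n) (f n)

/-- The product of the denominators to the powers `k`. -/
def den {R : Type*} [CommRing R] (C : ℕ → Chart) (m : ℕ) (t : ℕ → R) (k : ℕ → ℕ) : R :=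
  prodTo 1 (· * ·) (fun i => (((C i).c : R) + (C i).d * t i) ^ k i) m

/-- The homogenised expression. -/
def hom {R : Type*} [CommRing R] (C : ℕ → Chart) (m : ℕ) (t : ℕ → R) : Ex → R
  | .var i => ((C i).a : R) + (C i).b * t i
  | .num z => (z : R)
  | .add e f => hom C m t e * den C m t (fun j => max (e.deg j) (f.deg j) - e.deg j) +
      hom C m t f * den C m t (fun j => max (e.deg j) (f.deg j) - f.deg j)
  | .sub e f => hom C m t e * den C m t (fun j => max (e.deg j) (f.deg j) - e.deg j) -
      hom C m t f * den C m t (fun j => max (e.deg j) (f.deg j) - f.deg j)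
  | .mul e f => hom C m t e * hom C m t f
  | .pow e n => hom C m t e ^ n

/-- The bound of the product of the denominators. -/
def denB (C : ℕ → Chart) (m : ℕ) (k : ℕ → ℕ) : ℕ :=
  prodTo 1 (· * ·) (fun i => ((C i).c.natAbs + (C i).d.natAbs) ^ k i) m

/-- A bound of the absolute coefficient sum. -/
def bound (C : ℕ → Chart) (m : ℕ) : Ex → ℕ
  | .var i => (C i).a.natAbs + (C i).b.natAbs
  | .num z => z.natAbs
  | .add e f => bound C m e * denB C m (fun j => max (e.deg j) (f.deg j) - e.deg j) +
      bound C m f * denB C m (fun j => max (e.deg j) (f.deg j) - f.deg j)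
  | .sub e f => bound C m e * denB C m (fun j => max (e.deg j) (f.deg j) - e.deg j) +
      bound C m f * denB C m (fun j => max (e.deg j) (f.deg j) - f.deg j)
  | .mul e f => bound C m e * bound C m f
  | .pow e n => bound C m e ^ n

/-- The coefficient lists of the product of denominators. -/
def denR (C : ℕ → Chart) (m : ℕ) (k : ℕ → ℕ) : Rep m :=
  prodTo (cst m 1) (mul m) (fun i => rpow m (lin m i (C i).c (C i).d) (k i)) m

/-- The coefficient lists of the homogenised expression. -/
def rep (C : ℕ → Chart) (m : ℕ) : Ex → Rep m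
  | .var i => lin m i (C i).a (C i).b
  | .num z => cst m z
  | .add e f => add m (mul m (rep C m e) (denR C m fun j => max (e.deg j) (f.deg j) - e.deg j))
      (mul m (rep C m f) (denR C m fun j => max (e.deg j) (f.deg j) - f.deg j))
  | .sub e f => add m (mul m (rep C m e) (denR C m fun j => max (e.deg j) (f.deg j) - e.deg j))
      (mul m (cst m (-1))
        (mul m (rep C m f) (denR C m fun j => max (e.deg j) (f.deg j) - f.deg j)))
  | .mul e f => mul m (rep C m e) (rep C m f)
  | .pow e n => rpow m (rep C m e) n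

theorem ev_rpow {R : Type*} [CommRing R] (m : ℕ) (x : ℕ → R) (r : Rep m) :
    ∀ n, ev m x (rpow m r n) = ev m x r ^ n
  | 0 => by simp [rpow, ev_cst]
  | k + 1 => by simp [rpow, ev_mul, ev_rpow m x r k, pow_succ]

theorem nrm_rpow (m : ℕ) (r : Rep m) {B : ℕ} (h : nrm m r ≤ B) :
    ∀ n, nrm m (rpow m r n) ≤ B ^ n
  | 0 => by simp [rpow, nrm_cst]
  | k + 1 => by
    rw [rpow, pow_succ]
    exact (nrm_mul m _ _).trans (Nat.mul_le_mul (nrm_rpow m r h k) h)

theorem fits_rpow (m : ℕ) {r : Rep m} {D : ℕ → ℕ} (h : Fits m D r) :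
    ∀ n, Fits m (fun i => n * D i) (rpow m r n)
  | 0 => fits_cst m _ 1
  | k + 1 => fits_mono m (fun i => le_of_eq (by ring)) (fits_mul m (fits_rpow m h k) h)

theorem ev_lin {R : Type*} [CommRing R] : ∀ (m i : ℕ) (x : ℕ → R) (a b : ℤ), i < m →
    ev m x (lin m i a b) = a + b * x i
  | 0, i, _, _, _, h => absurd h (Nat.not_lt_zero i)
  | m + 1, 0, x, a, b, _ => by
    show evL (ev m fun i => x (i + 1)) (x 0) [cst m a, cst m b] = _
    simp [evL, ev_cst, mul_comm]
  | m + 1, i + 1, x, a, b, h => by
    show evL (ev m fun i => x (i + 1)) (x 0) [lin m i a b] = _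
    simp [evL, ev_lin m i _ a b (Nat.lt_of_succ_lt_succ h)]

theorem nrm_lin : ∀ (m i : ℕ) (a b : ℤ), nrm m (lin m i a b) ≤ a.natAbs + b.natAbs
  | 0, i, a, b => Nat.le_add_right _ _
  | m + 1, 0, a, b => by
    show (List.map (nrm m) [cst m a, cst m b]).sum ≤ _
    simp [nrm_cst]
  | m + 1, i + 1, a, b => by
    show (List.map (nrm m) [lin m i a b]).sum ≤ _
    simpa using nrm_lin m i a b

theorem fits_lin : ∀ (m i : ℕ) (a b : ℤ),
    Fits m (fun j => if i = j then 1 else 0) (lin m i a b)
  | 0, _, _, _ => trivial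
  | m + 1, 0, a, b => by
    refine ⟨by simp [lin], fun c hc => ?_⟩
    rcases List.mem_pair.1 hc with rfl | rfl <;> exact fits_cst m _ _
  | m + 1, i + 1, a, b => by
    refine ⟨by simp [lin], fun c hc => ?_⟩
    rw [List.mem_singleton.1 hc]
    exact fits_mono m (fun j => by split <;> simp_all) (fits_lin m i a b)

variable (C : ℕ → Chart) (m : ℕ)

theorem ev_denR {R : Type*} [CommRing R] (x : ℕ → R) (k : ℕ → ℕ) :
    ev m x (denR C m k) = den C m x k := by
  suffices ∀ n ≤ m, ev m x (prodTo (cst m 1) (mul m)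
      (fun i => rpow m (lin m i (C i).c (C i).d) (k i)) n) =
      prodTo 1 (· * ·) (fun i => (((C i).c : R) + (C i).d * x i) ^ k i) n from this m le_rfl
  intro n
  induction n with
  | zero => intro _; simp [prodTo, ev_cst]
  | succ n ih =>
    intro h
    simp only [prodTo, ev_mul, ih (by omega), ev_rpow, ev_lin m n x _ _ h]

theorem nrm_denR (k : ℕ → ℕ) : nrm m (denR C m k) ≤ denB C m k := by
  unfold denR denB
  suffices ∀ n, nrm m (prodTo (cst m 1) (mul m)
      (fun i => rpow m (lin m i (C i).c (C i).d) (k i)) n) ≤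
      prodTo 1 (· * ·) (fun i => ((C i).c.natAbs + (C i).d.natAbs) ^ k i) n from this m
  intro n
  induction n with
  | zero => simp [prodTo, nrm_cst]
  | succ n ih =>
    exact (nrm_mul m _ _).trans (Nat.mul_le_mul ih (nrm_rpow m _ (nrm_lin m n _ _) _))

theorem fits_denR (k : ℕ → ℕ) : Fits m k (denR C m k) := by
  suffices ∀ n, Fits m (fun j => if j < n then k j else 0)
      (prodTo (cst m 1) (mul m) (fun i => rpow m (lin m i (C i).c (C i).d) (k i)) n) from
    fits_mono m (fun j => by split <;> omega) (this m)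
  intro n
  induction n with
  | zero => exact fits_cst m _ 1
  | succ n ih =>
    refine fits_mono m (fun j => ?_) (fits_mul m ih (fits_rpow m (fits_lin m n _ _) (k n)))
    rcases eq_or_ne n j with rfl | h
    · simp
    · simp only [if_neg h, mul_zero, add_zero]
      split <;> split <;> omega

theorem ev_rep {R : Type*} [CommRing R] (x : ℕ → R) :
    ∀ e : Ex, e.ok m = true → ev m x (rep C m e) = hom C m x e
  | .var i, h => ev_lin m i x _ _ (by simpa [Ex.ok] using h)
  | .num z, _ => ev_cst m x z
  | .add e f, h => by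
    simp only [Ex.ok, Bool.and_eq_true] at h
    simp only [rep, hom, ev_add, ev_mul, ev_denR, ev_rep x e h.1, ev_rep x f h.2]
  | .sub e f, h => by
    simp only [Ex.ok, Bool.and_eq_true] at h
    simp only [rep, hom, ev_add, ev_mul, ev_cst, ev_denR, ev_rep x e h.1, ev_rep x f h.2]
    push_cast; ring
  | .mul e f, h => by
    simp only [Ex.ok, Bool.and_eq_true] at h
    simp only [rep, hom, ev_mul, ev_rep x e h.1, ev_rep x f h.2]
  | .pow e n, h => by simp only [rep, hom, ev_rpow, ev_rep x e (by simpa [Ex.ok] using h)]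

theorem nrm_rep : ∀ e : Ex, nrm m (rep C m e) ≤ bound C m e
  | .var i => nrm_lin m i _ _
  | .num z => (nrm_cst m z).le
  | .add e f => (nrm_add m _ _).trans (add_le_add
      ((nrm_mul m _ _).trans (Nat.mul_le_mul (nrm_rep e) (nrm_denR C m _)))
      ((nrm_mul m _ _).trans (Nat.mul_le_mul (nrm_rep f) (nrm_denR C m _))))
  | .sub e f => (nrm_add m _ _).trans (add_le_add
      ((nrm_mul m _ _).trans (Nat.mul_le_mul (nrm_rep e) (nrm_denR C m _)))
      ((nrm_mul m _ _).trans (by
        rw [nrm_cst, show Int.natAbs (-1) = 1 from rfl, one_mul]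
        exact (nrm_mul m _ _).trans (Nat.mul_le_mul (nrm_rep f) (nrm_denR C m _)))))
  | .mul e f => (nrm_mul m _ _).trans (Nat.mul_le_mul (nrm_rep e) (nrm_rep f))
  | .pow e n => nrm_rpow m _ (nrm_rep e) n

theorem fits_rep : ∀ e : Ex, Fits m e.deg (rep C m e)
  | .var i => fits_lin m i _ _
  | .num z => fits_cst m _ z
  | .add e f => fits_add m
      (fits_mono m (fun j => by simp only [Ex.deg]; omega) (fits_mul m (fits_rep e) (fits_denR C m _)))
      (fits_mono m (fun j => by simp only [Ex.deg]; omega) (fits_mul m (fits_rep f) (fits_denR C m _)))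
  | .sub e f => fits_add m
      (fits_mono m (fun j => by simp only [Ex.deg]; omega) (fits_mul m (fits_rep e) (fits_denR C m _)))
      (fits_mono m (fun j => by simp only [Ex.deg]; omega) (fits_mul m (fits_cst m (fun _ => 0) _)
        (fits_mul m (fits_rep f) (fits_denR C m _))))
  | .mul e f => fits_mul m (fits_rep e) (fits_rep f)
  | .pow e n => fits_rpow m (fits_rep e) n

/-- The certificate: one packed evaluation, its blocks, and the value at the corner `t = 0`. -/
def check (K : ℕ) (e : Ex) : Bool :=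
  e.ok m && decide (1 ≤ K) && decide (2 * bound C m e < 2 ^ K) &&
    decide (0 ≤ hom C m (base K m e.deg) e) &&
    digits m K e.deg (hom C m (base K m e.deg) e).toNat && decide (0 < hom C m (fun _ => (0 : ℤ)) e)

theorem evL_map_cast {α : Type} {f : α → ℤ} {g : α → ℝ} (h : ∀ a, ((f a : ℤ) : ℝ) = g a) (x : ℤ) :
    ∀ p : List α, ((evL f x p : ℤ) : ℝ) = evL g (x : ℝ) p
  | [] => by simp [evL]
  | a :: p => by simp [evL, h, evL_map_cast h x p]

theorem ev_cast : ∀ (m : ℕ) (x : ℕ → ℤ) (r : Rep m),
    ((ev m x r : ℤ) : ℝ) = ev m (fun i => (x i : ℝ)) r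
  | 0, _, r => by show (((r : ℤ) : ℤ) : ℝ) = ((r : ℤ) : ℝ); simp
  | m + 1, x, r => evL_map_cast (ev_cast m fun i => x (i + 1)) (x 0) r

theorem den_pos {t : ℕ → ℝ} (h : ∀ i < m, 0 < ((C i).c : ℝ) + (C i).d * t i) (k : ℕ → ℕ) :
    0 < den C m t k := by
  suffices ∀ n ≤ m, 0 < prodTo 1 (· * ·) (fun i => (((C i).c : ℝ) + (C i).d * t i) ^ k i) n from
    this m le_rfl
  intro n
  induction n with
  | zero => intro _; simp [prodTo]
  | succ n ih => intro hn; exact mul_pos (ih (by omega)) (pow_pos (h n hn) _)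

theorem den_mul {R : Type*} [CommRing R] (t : ℕ → R) (k l : ℕ → ℕ) :
    den C m t k * den C m t l = den C m t fun j => k j + l j := by
  unfold den
  induction m with
  | zero => simp [prodTo]
  | succ n ih => simp only [prodTo]; rw [← ih, pow_add]; ring

theorem den_zero {R : Type*} [CommRing R] (t : ℕ → R) :
    den C m t (fun _ => 0) = 1 := by
  unfold den
  induction m with
  | zero => simp [prodTo]
  | succ n ih =>
    simp only [prodTo, pow_zero, mul_one] at ih ⊢
    exact ih

theorem den_single {R : Type*} [CommRing R] (t : ℕ → R) {i : ℕ} (hi : i < m) :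
    den C m t (fun j => if i = j then 1 else 0) = ((C i).c : R) + (C i).d * t i := by
  have key : ∀ n, prodTo 1 (· * ·)
      (fun j => (((C j).c : R) + (C j).d * t j) ^ (if i = j then 1 else 0)) n =
      if i < n then ((C i).c : R) + (C i).d * t i else 1 := by
    intro n
    induction n with
    | zero => simp [prodTo]
    | succ n ih =>
      simp only [prodTo, ih]
      rcases lt_trichotomy i n with h | h | h
      · simp [h, h.ne, Nat.lt_succ_of_lt h]
      · subst h; simp
      · simp [h.ne', show ¬ i < n by omega, show ¬ i < n + 1 by omega]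
  rw [den, key, if_pos hi]

theorem den_mul_pow {R : Type*} [CommRing R] (t : ℕ → R) (k : ℕ → ℕ) :
    ∀ n : ℕ, den C m t k ^ n = den C m t fun j => n * k j
  | 0 => by simp [den_zero]
  | n + 1 => by rw [pow_succ, den_mul_pow t k n, den_mul]; simp only [add_mul, one_mul]

theorem hom_eq {t x : ℕ → ℝ}
    (h : ∀ i < m, ((C i).a : ℝ) + (C i).b * t i = x i * (((C i).c : ℝ) + (C i).d * t i)) :
    ∀ e : Ex, e.ok m = true → hom C m t e = den C m t e.deg * e.eval x
  | .var i, hi => by
    simp only [Ex.ok, decide_eq_true_eq] at hi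
    simp only [hom, Ex.eval, Ex.deg]
    rw [den_single C m t hi, h i hi]; ring
  | .num z, _ => by simp [hom, Ex.eval, Ex.deg, den_zero]
  | .add e f, hok => by
    simp only [Ex.ok, Bool.and_eq_true] at hok
    simp only [hom, Ex.eval, hom_eq h e hok.1, hom_eq h f hok.2]
    rw [mul_right_comm, mul_right_comm (den C m t f.deg), den_mul, den_mul]
    simp only [add_tsub_cancel_of_le (le_max_left _ _), add_tsub_cancel_of_le (le_max_right _ _)]
    rw [← mul_add]; rfl
  | .sub e f, hok => by
    simp only [Ex.ok, Bool.and_eq_true] at hok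
    simp only [hom, Ex.eval, hom_eq h e hok.1, hom_eq h f hok.2]
    rw [mul_right_comm, mul_right_comm (den C m t f.deg), den_mul, den_mul]
    simp only [add_tsub_cancel_of_le (le_max_left _ _), add_tsub_cancel_of_le (le_max_right _ _)]
    rw [← mul_sub]; rfl
  | .mul e f, hok => by
    simp only [Ex.ok, Bool.and_eq_true] at hok
    simp only [hom, Ex.eval, hom_eq h e hok.1, hom_eq h f hok.2]
    rw [mul_mul_mul_comm, den_mul]; rfl
  | .pow e n, hok => by
    simp only [Ex.ok] at hok
    simp only [hom, Ex.eval, hom_eq h e hok]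
    rw [mul_pow, den_mul_pow]; rfl

/-- **A checked expression is positive on the box.** -/
theorem pos_of_check {K : ℕ} {e : Ex} (h : check C m K e = true) {x : ℕ → ℝ}
    (hx : ∀ i < m, ∃ t : ℝ, 0 ≤ t ∧ 0 < ((C i).c : ℝ) + (C i).d * t ∧
      ((C i).a : ℝ) + (C i).b * t = x i * (((C i).c : ℝ) + (C i).d * t)) :
    0 < e.eval x := by
  simp only [check, Bool.and_eq_true, decide_eq_true_eq] at h
  obtain ⟨⟨⟨⟨⟨hok, hK⟩, hb⟩, hv⟩, hd⟩, h0⟩ := h
  choose t ht using hx
  set s : ℕ → ℝ := fun i => if hi : i < m then t i hi else 0 with hs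
  have hsv : ∀ i (hi : i < m), s i = t i hi := fun i hi => by simp [hs, hi]
  have hs0 : ∀ i, 0 ≤ s i := fun i => by
    by_cases hi : i < m
    · rw [hsv i hi]; exact (ht i hi).1
    · simp [hs, hi]
  have hn := nonneg_of_digits m K e.deg (rep C m e) _ hK (fits_rep C m e)
    (lt_of_le_of_lt (Nat.mul_le_mul_left 2 (nrm_rep C m e)) hb)
    (by rw [ev_rep C m _ e hok, Int.toNat_of_nonneg hv]) hd
  have h1 : 0 < ev m (fun _ => (0 : ℝ)) (rep C m e) := by
    have := ev_cast m (fun _ => 0) (rep C m e)
    rw [ev_rep C m _ e hok] at this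
    simp only [Int.cast_zero] at this
    rw [← this]; exact_mod_cast h0
  have h2 := h1.trans_le (ev_zero_le m hs0 hn)
  rw [ev_rep C m s e hok, hom_eq C m (x := x) (fun i hi => by rw [hsv i hi]; exact (ht i hi).2.2)
    e hok] at h2
  exact pos_of_mul_pos_right h2 (den_pos C m (fun i hi => by
    rw [hsv i hi]; exact (ht i hi).2.1) _).le

/-- A point of `[a/c, b/d)` lies in the chart `(a, b, c, d)`. -/
theorem mem_chart {c : Chart} {x : ℝ} (hc : 0 < c.c) (hd : 0 < c.d)
    (h1 : (c.a : ℝ) ≤ x * c.c) (h2 : x * c.d < c.b) :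
    ∃ t : ℝ, 0 ≤ t ∧ 0 < (c.c : ℝ) + c.d * t ∧ (c.a : ℝ) + c.b * t = x * (c.c + c.d * t) := by
  have h3 : 0 < (c.b : ℝ) - x * c.d := by linarith
  have hcR : (0 : ℝ) < c.c := by exact_mod_cast hc
  have hdR : (0 : ℝ) < c.d := by exact_mod_cast hd
  refine ⟨(x * c.c - c.a) / (c.b - x * c.d), div_nonneg (by linarith) h3.le, ?_, ?_⟩
  · have : 0 ≤ (c.d : ℝ) * ((x * c.c - c.a) / (c.b - x * c.d)) :=
      mul_nonneg hdR.le (div_nonneg (by linarith) h3.le)
    linarith
  · have e := div_mul_cancel₀ (x * c.c - c.a) h3.ne'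
    linear_combination e

end Vale.Agent.P100.Pack
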