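import Mathlib
import Vale.Agent.P100.Pack.Expr

/-!
# Reading all coefficient signs with one bitwise `and`

`maskDigits` tests the top bit of every `K`-bit block of the packed integer at once; it implies
the recursive test `digits`, so `pos_of_checkFast` costs the evaluation only.
-/

namespace Vale.Agent.P100.Pack

/-- The integer with a one at the bottom of each of `n` blocks of `K` bits. -/
def repunit (K n : ℕ) : ℕ := (2 ^ (K * n) - 1) / (2 ^ K - 1)

/-- All `n` blocks of `K` bits are below `2 ^ (K - 1)` and nothing lies above them. -/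
def maskDigits (K n Z : ℕ) : Bool :=
  Nat.blt Z (2 ^ (K * n)) && Nat.beq (Z &&& (2 ^ (K - 1) * repunit K n)) 0

theorem repunit_succ {K : ℕ} (hK : 1 ≤ K) (n : ℕ) :
    repunit K (n + 1) = 2 ^ K * repunit K n + 1 := by
  have h2 : 2 ≤ 2 ^ K := le_self_pow₀ (by norm_num) (by omega)
  have e : ∀ j, repunit K j = ∑ i ∈ Finset.range j, (2 ^ K) ^ i := fun j => by
    rw [repunit, pow_mul, Nat.geomSum_eq h2]
  rw [e, e, geom_sum_succ]

theorem testBit_repunit {K : ℕ} (hK : 1 ≤ K) :
    ∀ n i, i < n → (repunit K n).testBit (K * i) = true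
  | 0, i, h => absurd h (Nat.not_lt_zero i)
  | n + 1, 0, _ => by
    rw [repunit_succ hK, Nat.testBit_two_pow_mul_add _ (Nat.one_lt_two_pow (by omega))]
    simp [show 0 < K by omega]
  | n + 1, i + 1, h => by
    rw [repunit_succ hK, Nat.testBit_two_pow_mul_add _ (Nat.one_lt_two_pow (by omega))]
    have e : K * (i + 1) - K = K * i := by rw [Nat.mul_succ]; omega
    simp [show ¬ K * (i + 1) < K by rw [Nat.mul_succ]; omega, e,
      testBit_repunit hK n i (by omega)]

theorem testBit_of_maskDigits {K n Z : ℕ} (hK : 1 ≤ K) (h : maskDigits K n Z = true) :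
    Z < 2 ^ (K * n) ∧ ∀ i < n, Z.testBit (K * i + (K - 1)) = false := by
  simp only [maskDigits, Bool.and_eq_true, Nat.beq_eq, Nat.blt_eq] at h
  refine ⟨h.1, fun i hi => ?_⟩
  have := congrArg (fun x => x.testBit (K * i + (K - 1))) h.2
  simp only [Nat.testBit_and, Nat.zero_testBit, Nat.testBit_two_pow_mul] at this
  simpa [testBit_repunit hK n i hi] using this

theorem two_mul_lt_of_testBit {W Z : ℕ} (hW : 1 ≤ W) (h1 : Z < 2 ^ W)
    (h2 : Z.testBit (W - 1) = false) : 2 * Z < 2 ^ W := by
  obtain ⟨j, rfl⟩ : ∃ j, W = j + 1 := ⟨W - 1, by omega⟩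
  simp only [Nat.add_sub_cancel] at h2
  have : Z < 2 ^ j := by
    refine Nat.lt_pow_two_of_testBit Z fun i hi => ?_
    rcases eq_or_lt_of_le hi with rfl | hlt
    · exact h2
    · exact Nat.testBit_lt_two_pow (h1.trans_le (Nat.pow_le_pow_right (by norm_num) hlt))
  rw [pow_succ]; omega

theorem width_pos : ∀ (m : ℕ) (D : ℕ → ℕ), 0 < width m D
  | 0, _ => Nat.one_pos
  | m + 1, _ => Nat.mul_pos (Nat.succ_pos _) (width_pos m _)

/-- The mask test implies the recursive test. -/
theorem digits_of_bits (m : ℕ) : ∀ (K : ℕ) (D : ℕ → ℕ) (Z : ℕ), 1 ≤ K →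
    Z < 2 ^ (K * ((D 0 + 1) * width (m - 1) D)) →
    (∀ i < (D 0 + 1) * width (m - 1) D, Z.testBit (K * i + (K - 1)) = false) →
    digits m K D Z = true := by
  induction m with
  | zero => intros; rfl
  | succ m rec =>
    intro K D Z hK h1 h2
    simp only [Nat.add_sub_cancel] at h1 h2
    have key : ∀ L Z : ℕ, Z < 2 ^ (K * (L * width m D)) →
        (∀ i < L * width m D, Z.testBit (K * i + (K - 1)) = false) →
        digits.go (digits m K fun i => D (i + 1)) (2 ^ (K * width m D)) L Z = true := by
      intro L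
      induction L with
      | zero =>
        intro Z h _
        simp only [zero_mul, mul_zero, pow_zero, Nat.lt_one_iff] at h
        simp [digits.go, h]
      | succ L ih =>
        intro Z h hb
        have hw := width_pos m D
        simp only [digits.go, Bool.and_eq_true, decide_eq_true_eq]
        have hlow : ∀ i < width m D,
            (Z % 2 ^ (K * width m D)).testBit (K * i + (K - 1)) = false := fun i hi => by
          rw [Nat.testBit_mod_two_pow, hb i (by rw [Nat.succ_mul]; omega), Bool.and_false]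
        refine ⟨⟨two_mul_lt_of_testBit (Nat.mul_pos hK hw) (Nat.mod_lt _ (by positivity)) ?_,
          ?_⟩, ih _ ?_ ?_⟩
        · have := hlow (width m D - 1) (by omega)
          rwa [show K * (width m D - 1) + (K - 1) = K * width m D - 1 by
            rw [Nat.mul_sub, mul_one]; have := Nat.le_mul_of_pos_right K hw; omega] at this
        · rcases m with - | k
          · rfl
          · exact rec K _ _ hK (lt_of_lt_of_eq (Nat.mod_lt _ (by positivity)) (by rfl)) hlow
        · rw [Nat.div_lt_iff_lt_mul (by positivity), ← pow_add, ← Nat.mul_add, ← Nat.succ_mul]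
          exact h
        · intro i hi
          rw [Nat.testBit_div_two_pow, show K * i + (K - 1) + K * width m D =
            K * (i + width m D) + (K - 1) by ring]
          exact hb _ (by rw [Nat.succ_mul]; omega)
    exact key (D 0 + 1) Z h1 h2

/-- The certificate with the mask test. -/
def checkFast (C : ℕ → Chart) (m K : ℕ) (e : Ex) : Bool :=
  e.ok m && decide (1 ≤ K) && decide (2 * bound C m e < 2 ^ K) &&
    decide (0 ≤ hom C m (base K m e.deg) e) &&
    maskDigits K ((e.deg 0 + 1) * width (m - 1) e.deg) (hom C m (base K m e.deg) e).toNat &&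
    decide (0 < hom C m (fun _ => (0 : ℤ)) e)

/-- **An expression passing the fast check is positive on the box.** -/
theorem pos_of_checkFast {C : ℕ → Chart} {m K : ℕ} {e : Ex} (h : checkFast C m K e = true)
    {x : ℕ → ℝ}
    (hx : ∀ i < m, ∃ t : ℝ, 0 ≤ t ∧ 0 < ((C i).c : ℝ) + (C i).d * t ∧
      ((C i).a : ℝ) + (C i).b * t = x i * (((C i).c : ℝ) + (C i).d * t)) :
    0 < e.eval x := by
  refine pos_of_check C m (K := K) ?_ hx
  simp only [checkFast, Bool.and_eq_true] at h
  obtain ⟨⟨h1, h2⟩, h3⟩ := h
  simp only [check, Bool.and_eq_true]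
  refine ⟨⟨h1, ?_⟩, h3⟩
  obtain ⟨b1, b2⟩ := testBit_of_maskDigits (by simpa using h1.1.1.2) h2
  exact digits_of_bits m K e.deg _ (by simpa using h1.1.1.2) b1 b2

end Vale.Agent.P100.Pack
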