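import Mathlib
import Vale.Agent.P100.Pack.Mask

/-!
# Equality of two integer polynomial expressions by one packed evaluation

If the packed value of `e - f` is zero and the coefficient bound fits the blocks, all coefficients
vanish, hence `e` and `f` agree everywhere. Also `nonneg_of_checkNonneg`: the sign test without the
value at the corner, for expressions vanishing there.
-/

namespace Vale.Agent.P100.Pack

/-- The chart `x = t`. -/
def idChart : Chart := ⟨0, 1, 1, 0⟩

/-- The packed value of `e - f` vanishes. -/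
def checkSame (m K : ℕ) (e f : Ex) : Bool :=
  let g := e.sub f
  g.ok m && decide (1 ≤ K) && decide (2 * bound (fun _ => idChart) m g < 2 ^ K) &&
    decide (hom (fun _ => idChart) m (base K m g.deg) g = 0)

theorem digits_zero : ∀ (m K : ℕ) (D : ℕ → ℕ), digits m K D 0 = true
  | 0, _, _ => rfl
  | m + 1, K, D => by
    show digits.go (digits m K fun i => D (i + 1)) (2 ^ (K * width m D)) (D 0 + 1) 0 = true
    generalize D 0 + 1 = L
    induction L with
    | zero => rfl
    | succ L ih => simp [digits.go, ih, digits_zero m K]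

/-- Negated coefficients. -/
def neg (m : ℕ) (a : Rep m) : Rep m := mul m (cst m (-1)) a

theorem fits_neg {m : ℕ} {D : ℕ → ℕ} {a : Rep m} (h : Fits m D a) : Fits m D (neg m a) :=
  fits_mono m (fun i => by simp) (fits_mul m (fits_cst m (fun _ => 0) (-1)) h)

/-- **Two expressions with equal packed values are equal.** -/
theorem eval_eq_of_checkSame_nonneg {m K : ℕ} {e f : Ex} (h : checkSame m K e f = true) {x : ℕ → ℝ}
    (hx : ∀ i < m, 0 ≤ x i) : e.eval x = f.eval x := by
  simp only [checkSame, Bool.and_eq_true, decide_eq_true_eq] at h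
  obtain ⟨⟨⟨hok, hK⟩, hb⟩, hv⟩ := h
  set C : ℕ → Chart := fun _ => idChart
  set g := e.sub f
  set r := rep C m g
  have hnrm : nrm m (neg m r) ≤ nrm m r := by
    refine (nrm_mul m _ _).trans ?_
    simp [nrm_cst]
  have hr : 2 * nrm m r < 2 ^ K := lt_of_le_of_lt (Nat.mul_le_mul_left 2 (nrm_rep C m g)) hb
  have he : ev m (base K m g.deg) r = ((0 : ℕ) : ℤ) := by rw [ev_rep C m _ g hok, hv]; rfl
  have he' : ev m (base K m g.deg) (neg m r) = ((0 : ℕ) : ℤ) := by
    simp [neg, ev_mul, ev_cst, he]
  have p1 := nonneg_of_digits m K g.deg r 0 hK (fits_rep C m g) hr he (digits_zero m K _)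
  have p2 := nonneg_of_digits m K g.deg (neg m r) 0 hK (fits_neg (fits_rep C m g))
    (lt_of_le_of_lt (Nat.mul_le_mul_left 2 hnrm) hr) he' (digits_zero m K _)
  set s : ℕ → ℝ := fun i => if i < m then x i else 0
  have hs : ∀ i, 0 ≤ s i := fun i => by
    show (0 : ℝ) ≤ if i < m then x i else 0
    split
    · exact hx i (by assumption)
    · exact le_rfl
  have a1 := ev_nonneg m hs p1
  have a2 := ev_nonneg m hs p2
  rw [neg, ev_mul, ev_cst] at a2
  have h0 : ev m s r = 0 := by push_cast at a2; linarith
  rw [ev_rep C m s g hok, hom_eq C m (x := x) (fun i hi => by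
    simp [C, idChart, s, hi]) g hok] at h0
  have hd := den_pos C m (t := s) (fun i _ => by simp [C, idChart]) g.deg
  have := (mul_eq_zero.1 h0).resolve_left hd.ne'
  simp only [g, Ex.eval] at this
  linarith

/-- Evaluation commutes with the evaluation of polynomials. -/
theorem eval_poly (x : ℕ → Polynomial ℝ) (t : ℝ) :
    ∀ e : Ex, (e.eval x).eval t = e.eval fun i => (x i).eval t
  | .var i => rfl
  | .num z => by simp [Ex.eval]
  | .add e f => by simp [Ex.eval, eval_poly x t e, eval_poly x t f]
  | .sub e f => by simp [Ex.eval, eval_poly x t e, eval_poly x t f]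
  | .mul e f => by simp [Ex.eval, eval_poly x t e, eval_poly x t f]
  | .pow e n => by simp [Ex.eval, eval_poly x t e]

/-- **Two expressions with equal packed values are equal at every point.** -/
theorem eval_eq_of_checkSame {m K : ℕ} {e f : Ex} (h : checkSame m K e f = true) (x : ℕ → ℝ) :
    e.eval x = f.eval x := by
  set X : ℕ → Polynomial ℝ := fun i => Polynomial.C (x i) + Polynomial.X
  obtain ⟨B, hB⟩ : ∃ B : ℝ, ∀ i < m, -B ≤ x i :=
    ⟨∑ i ∈ Finset.range m, |x i|, fun i hi => (neg_le_neg (Finset.single_le_sum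
      (fun j _ => abs_nonneg (x j)) (Finset.mem_range.2 hi))).trans (neg_abs_le _)⟩
  have e0 : e.eval X = f.eval X := by
    refine Polynomial.eq_of_infinite_eval_eq _ _ ((Set.Ici_infinite B).mono fun t ht => ?_)
    simp only [Set.mem_ofPred_eq, eval_poly, X, Polynomial.eval_add, Polynomial.eval_C,
      Polynomial.eval_X]
    exact eval_eq_of_checkSame_nonneg h fun i hi => by linarith [hB i hi, Set.mem_Ici.1 ht]
  have := congrArg (Polynomial.eval 0) e0
  simpa [eval_poly, X] using this

/-- The sign test without the corner value. -/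
def checkNonneg (C : ℕ → Chart) (m K : ℕ) (e : Ex) : Bool :=
  e.ok m && decide (1 ≤ K) && decide (2 * bound C m e < 2 ^ K) &&
    decide (0 ≤ hom C m (base K m e.deg) e) &&
    maskDigits K ((e.deg 0 + 1) * width (m - 1) e.deg) (hom C m (base K m e.deg) e).toNat

/-- **An expression passing the sign test is nonnegative on the box.** -/
theorem nonneg_of_checkNonneg {C : ℕ → Chart} {m K : ℕ} {e : Ex}
    (h : checkNonneg C m K e = true) {x : ℕ → ℝ}
    (hx : ∀ i < m, ∃ t : ℝ, 0 ≤ t ∧ 0 < ((C i).c : ℝ) + (C i).d * t ∧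
      ((C i).a : ℝ) + (C i).b * t = x i * (((C i).c : ℝ) + (C i).d * t)) :
    0 ≤ e.eval x := by
  simp only [checkNonneg, Bool.and_eq_true, decide_eq_true_eq] at h
  obtain ⟨⟨⟨⟨hok, hK⟩, hb⟩, hv⟩, hm⟩ := h
  obtain ⟨b1, b2⟩ := testBit_of_maskDigits hK hm
  choose t ht using hx
  set s : ℕ → ℝ := fun i => if hi : i < m then t i hi else 0 with hs
  have hsv : ∀ i (hi : i < m), s i = t i hi := fun i hi => by simp [hs, hi]
  have hs0 : ∀ i, 0 ≤ s i := fun i => by
    by_cases hi : i < m
    · rw [hsv i hi]; exact (ht i hi).1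
    · simp [hs, hi]
  have hn := nonneg_of_digits m K e.deg (rep C m e) _ hK (fits_rep C m e)
    (lt_of_le_of_lt (Nat.mul_le_mul_left 2 (nrm_rep C m e)) hb)
    (by rw [ev_rep C m _ e hok, Int.toNat_of_nonneg hv]) (digits_of_bits m K e.deg _ hK b1 b2)
  have h2 := ev_nonneg m hs0 hn
  rw [ev_rep C m s e hok, hom_eq C m (x := x) (fun i hi => by rw [hsv i hi]; exact (ht i hi).2.2)
    e hok] at h2
  exact nonneg_of_mul_nonneg_right h2 (den_pos C m (fun i hi => by
    rw [hsv i hi]; exact (ht i hi).2.1) _)

end Vale.Agent.P100.Pack
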