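import Mathlib
import Vale.Agent.P100.Pack.Mask
import Vale.Agent.P100.Pack.Same

/-!
# The nonnegativity test in one pass, four variables

`eval4` finds value, coefficient bound and degrees together by the recursor of `Ex`, with arithmetic
the kernel accelerates. A named subexpression used several times is evaluated once.
-/

namespace Vale.Agent.P100.Pack

/-- The evaluation data: the values of the variables and of the denominators, with their bounds. -/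
structure Pt4 where
  x₀ : ℤ
  x₁ : ℤ
  x₂ : ℤ
  x₃ : ℤ
  p₀ : ℕ
  p₁ : ℕ
  p₂ : ℕ
  p₃ : ℕ
  q₀ : ℕ
  q₁ : ℕ
  q₂ : ℕ
  q₃ : ℕ
  v₀ : ℕ
  v₁ : ℕ
  v₂ : ℕ
  v₃ : ℕ

/-- Value, bound and degrees. -/
structure Res4 where
  val : ℤ
  bnd : ℕ
  n₀ : ℕ
  n₁ : ℕ
  n₂ : ℕ
  n₃ : ℕ

/-- The maximum, by primitive operations. -/
def nmax (a b : ℕ) : ℕ := Nat.add a (Nat.sub b a)

theorem nmax_eq (a b : ℕ) : nmax a b = max a b := by
  show a + (b - a) = max a b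
  omega

/-- The value brought to higher degrees. -/
def Res4.lift (P : Pt4) (r : Res4) (a b c e : ℕ) : ℤ :=
  cond (Nat.beq a r.n₀ && (Nat.beq b r.n₁ && (Nat.beq c r.n₂ && Nat.beq e r.n₃))) r.val
    (Int.mul r.val (Int.ofNat (Nat.mul (Nat.pow P.p₀ (Nat.sub a r.n₀))
      (Nat.mul (Nat.pow P.p₁ (Nat.sub b r.n₁))
        (Nat.mul (Nat.pow P.p₂ (Nat.sub c r.n₂)) (Nat.pow P.p₃ (Nat.sub e r.n₃)))))))

/-- The bound brought to higher degrees. -/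
def Res4.liftB (P : Pt4) (r : Res4) (a b c e : ℕ) : ℕ :=
  cond (Nat.beq a r.n₀ && (Nat.beq b r.n₁ && (Nat.beq c r.n₂ && Nat.beq e r.n₃))) r.bnd
    (Nat.mul r.bnd (Nat.mul (Nat.pow P.q₀ (Nat.sub a r.n₀))
      (Nat.mul (Nat.pow P.q₁ (Nat.sub b r.n₁))
        (Nat.mul (Nat.pow P.q₂ (Nat.sub c r.n₂)) (Nat.pow P.q₃ (Nat.sub e r.n₃))))))

/-- One pass. -/
noncomputable def eval4 (P : Pt4) (e : Ex) : Res4 :=
  Ex.rec (motive := fun _ => Res4)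
    (fun i => Nat.casesOn i ⟨P.x₀, P.v₀, 1, 0, 0, 0⟩
      fun i => Nat.casesOn i ⟨P.x₁, P.v₁, 0, 1, 0, 0⟩
      fun i => Nat.casesOn i ⟨P.x₂, P.v₂, 0, 0, 1, 0⟩ fun _ => ⟨P.x₃, P.v₃, 0, 0, 0, 1⟩)
    (fun z => ⟨z, Int.natAbs z, 0, 0, 0, 0⟩)
    (fun _ _ p q => ⟨Int.add
        (p.lift P (nmax p.n₀ q.n₀) (nmax p.n₁ q.n₁) (nmax p.n₂ q.n₂) (nmax p.n₃ q.n₃))
        (q.lift P (nmax p.n₀ q.n₀) (nmax p.n₁ q.n₁) (nmax p.n₂ q.n₂) (nmax p.n₃ q.n₃)),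
      Nat.add (p.liftB P (nmax p.n₀ q.n₀) (nmax p.n₁ q.n₁) (nmax p.n₂ q.n₂) (nmax p.n₃ q.n₃))
        (q.liftB P (nmax p.n₀ q.n₀) (nmax p.n₁ q.n₁) (nmax p.n₂ q.n₂) (nmax p.n₃ q.n₃)),
      nmax p.n₀ q.n₀, nmax p.n₁ q.n₁, nmax p.n₂ q.n₂, nmax p.n₃ q.n₃⟩)
    (fun _ _ p q => ⟨Int.sub
        (p.lift P (nmax p.n₀ q.n₀) (nmax p.n₁ q.n₁) (nmax p.n₂ q.n₂) (nmax p.n₃ q.n₃))
        (q.lift P (nmax p.n₀ q.n₀) (nmax p.n₁ q.n₁) (nmax p.n₂ q.n₂) (nmax p.n₃ q.n₃)),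
      Nat.add (p.liftB P (nmax p.n₀ q.n₀) (nmax p.n₁ q.n₁) (nmax p.n₂ q.n₂) (nmax p.n₃ q.n₃))
        (q.liftB P (nmax p.n₀ q.n₀) (nmax p.n₁ q.n₁) (nmax p.n₂ q.n₂) (nmax p.n₃ q.n₃)),
      nmax p.n₀ q.n₀, nmax p.n₁ q.n₁, nmax p.n₂ q.n₂, nmax p.n₃ q.n₃⟩)
    (fun _ _ p q => ⟨Int.mul p.val q.val, Nat.mul p.bnd q.bnd, Nat.add p.n₀ q.n₀,
      Nat.add p.n₁ q.n₁, Nat.add p.n₂ q.n₂, Nat.add p.n₃ q.n₃⟩)
    (fun _ k p => ⟨p.val ^ k, Nat.pow p.bnd k, Nat.mul k p.n₀, Nat.mul k p.n₁, Nat.mul k p.n₂,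
      Nat.mul k p.n₃⟩)
    e

/-- The degrees of four variables as a function. -/
def deg4 (a b c e : ℕ) : ℕ → ℕ
  | 0 => a
  | 1 => b
  | 2 => c
  | 3 => e
  | _ => 0

/-- The evaluation data at the packing point. -/
def pt4 (C : ℕ → Chart) (K : ℕ) (D : ℕ → ℕ) : Pt4 :=
  ⟨(C 0).a + (C 0).b * base K 4 D 0, (C 1).a + (C 1).b * base K 4 D 1,
    (C 2).a + (C 2).b * base K 4 D 2, (C 3).a + (C 3).b * base K 4 D 3,
    ((C 0).c + (C 0).d * base K 4 D 0).toNat, ((C 1).c + (C 1).d * base K 4 D 1).toNat,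
    ((C 2).c + (C 2).d * base K 4 D 2).toNat, ((C 3).c + (C 3).d * base K 4 D 3).toNat,
    (C 0).c.natAbs + (C 0).d.natAbs, (C 1).c.natAbs + (C 1).d.natAbs,
    (C 2).c.natAbs + (C 2).d.natAbs, (C 3).c.natAbs + (C 3).d.natAbs,
    (C 0).a.natAbs + (C 0).b.natAbs, (C 1).a.natAbs + (C 1).b.natAbs,
    (C 2).a.natAbs + (C 2).b.natAbs, (C 3).a.natAbs + (C 3).b.natAbs⟩

/-- The denominators of the charts have nonnegative coefficients. -/
def chartsOk (C : ℕ → Chart) : Bool :=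
  decide (0 ≤ (C 0).c ∧ 0 ≤ (C 0).d) && decide (0 ≤ (C 1).c ∧ 0 ≤ (C 1).d) &&
    decide (0 ≤ (C 2).c ∧ 0 ≤ (C 2).d) && decide (0 ≤ (C 3).c ∧ 0 ≤ (C 3).d)

/-- The test: `e` has degrees `(a, b, c, d)` and only nonnegative coefficients in the charts. -/
noncomputable def checkFour (C : ℕ → Chart) (K a b c d : ℕ) (e : Ex) : Bool :=
  let P := pt4 C K (deg4 a b c d)
  chartsOk C && e.ok 4 && decide (1 ≤ K) &&
    (Nat.beq (eval4 P e).n₀ a && Nat.beq (eval4 P e).n₁ b && Nat.beq (eval4 P e).n₂ c &&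
      Nat.beq (eval4 P e).n₃ d) &&
    Nat.blt (Nat.mul 2 (eval4 P e).bnd) (Nat.pow 2 K) && decide (0 ≤ (eval4 P e).val) &&
    maskDigits K ((a + 1) * width 3 (deg4 a b c d)) (eval4 P e).val.toNat

theorem base_nonneg : ∀ (K m : ℕ) (D : ℕ → ℕ) (i : ℕ), 0 ≤ base K m D i
  | _, _, _, 0 => Int.natCast_nonneg _
  | K, m, D, i + 1 => base_nonneg K (m - 1) (fun j => D (j + 1)) i

theorem den_four {R : Type*} [CommRing R] (C : ℕ → Chart) (t : ℕ → R) (k : ℕ → ℕ) :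
    den C 4 t k = (((C 0).c : R) + (C 0).d * t 0) ^ k 0 * ((((C 1).c : R) + (C 1).d * t 1) ^ k 1 *
      ((((C 2).c : R) + (C 2).d * t 2) ^ k 2 * (((C 3).c : R) + (C 3).d * t 3) ^ k 3)) := by
  simp [den, prodTo, mul_assoc]

theorem denB_four (C : ℕ → Chart) (k : ℕ → ℕ) :
    denB C 4 k = ((C 0).c.natAbs + (C 0).d.natAbs) ^ k 0 *
      (((C 1).c.natAbs + (C 1).d.natAbs) ^ k 1 *
        (((C 2).c.natAbs + (C 2).d.natAbs) ^ k 2 *
          ((C 3).c.natAbs + (C 3).d.natAbs) ^ k 3)) := by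
  simp [denB, prodTo, mul_assoc]

theorem bound_congr (C : ℕ → Chart) {k l : ℕ → ℕ} (h : ∀ j < 4, k j = l j) :
    denB C 4 k = denB C 4 l := by
  simp only [denB_four, h 0 (by norm_num), h 1 (by norm_num), h 2 (by norm_num), h 3 (by norm_num)]

section

variable {C : ℕ → Chart} {K : ℕ} {D : ℕ → ℕ}

/-- What one pass returns. -/
def Spec (C : ℕ → Chart) (K : ℕ) (D : ℕ → ℕ) (e : Ex) (r : Res4) : Prop :=
  r.val = hom C 4 (base K 4 D) e ∧ r.bnd = bound C 4 e ∧ r.n₀ = e.deg 0 ∧ r.n₁ = e.deg 1 ∧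
    r.n₂ = e.deg 2 ∧ r.n₃ = e.deg 3

theorem lift_spec (hC : chartsOk C = true) {e : Ex} {r : Res4} (h : Spec C K D e r)
    {a b c d : ℕ} {k : ℕ → ℕ} (h₀ : k 0 = a - r.n₀) (h₁ : k 1 = b - r.n₁) (h₂ : k 2 = c - r.n₂)
    (h₃ : k 3 = d - r.n₃) :
    r.lift (pt4 C K D) a b c d = hom C 4 (base K 4 D) e * den C 4 (base K 4 D) k ∧
      r.liftB (pt4 C K D) a b c d = bound C 4 e * denB C 4 k := by
  obtain ⟨hv, hb, -, -, -, -⟩ := h
  simp only [chartsOk, Bool.and_eq_true, decide_eq_true_eq] at hC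
  obtain ⟨⟨⟨c0, c1⟩, c2⟩, c3⟩ := hC
  have tn : ∀ i, 0 ≤ (C i).c ∧ 0 ≤ (C i).d →
      ((((C i).c + (C i).d * base K 4 D i).toNat : ℕ) : ℤ) =
        (C i).c + (C i).d * base K 4 D i := fun i hi =>
    Int.toNat_of_nonneg (add_nonneg hi.1 (mul_nonneg hi.2 (base_nonneg K 4 D i)))
  unfold Res4.lift Res4.liftB
  cases hcase : Nat.beq a r.n₀ && (Nat.beq b r.n₁ && (Nat.beq c r.n₂ && Nat.beq d r.n₃))
  · simp only [cond_false, Int.mul_def, Int.ofNat_eq_natCast, Nat.mul_eq, Nat.pow_eq,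
      Nat.sub_eq]
    rw [den_four, denB_four, h₀, h₁, h₂, h₃, hv, hb]
    simp only [pt4, Nat.cast_mul, Nat.cast_pow, tn 0 c0, tn 1 c1, tn 2 c2, tn 3 c3]
    simp
  · simp only [Bool.and_eq_true, Nat.beq_eq] at hcase
    obtain ⟨rfl, rfl, rfl, rfl⟩ := hcase
    simp only [cond_true, hv, hb, den_four, denB_four, h₀, h₁, h₂, h₃, Nat.sub_self, pow_zero,
      mul_one, and_self]

theorem common_spec (hC : chartsOk C = true) {e f : Ex} {p q : Res4} (he : Spec C K D e p)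
    (hf : Spec C K D f q) :
    let a := nmax p.n₀ q.n₀
    let b := nmax p.n₁ q.n₁
    let c := nmax p.n₂ q.n₂
    let d := nmax p.n₃ q.n₃
    (p.lift (pt4 C K D) a b c d = hom C 4 (base K 4 D) e *
        den C 4 (base K 4 D) (fun j => max (e.deg j) (f.deg j) - e.deg j) ∧
      p.liftB (pt4 C K D) a b c d = bound C 4 e *
        denB C 4 (fun j => max (e.deg j) (f.deg j) - e.deg j)) ∧
    (q.lift (pt4 C K D) a b c d = hom C 4 (base K 4 D) f *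
        den C 4 (base K 4 D) (fun j => max (e.deg j) (f.deg j) - f.deg j) ∧
      q.liftB (pt4 C K D) a b c d = bound C 4 f *
        denB C 4 (fun j => max (e.deg j) (f.deg j) - f.deg j)) ∧
    a = max (e.deg 0) (f.deg 0) ∧ b = max (e.deg 1) (f.deg 1) ∧ c = max (e.deg 2) (f.deg 2) ∧
      d = max (e.deg 3) (f.deg 3) := by
  intro a b c d
  obtain ⟨-, -, a₀, a₁, a₂, a₃⟩ := id he
  obtain ⟨-, -, b₀, b₁, b₂, b₃⟩ := id hf
  refine ⟨lift_spec hC he ?_ ?_ ?_ ?_, lift_spec hC hf ?_ ?_ ?_ ?_, ?_, ?_, ?_, ?_⟩ <;>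
    simp [a, b, c, d, nmax_eq, a₀, a₁, a₂, a₃, b₀, b₁, b₂, b₃]

theorem eval4_spec (hC : chartsOk C = true) :
    ∀ e : Ex, e.ok 4 = true → Spec C K D e (eval4 (pt4 C K D) e)
  | .var i, h => by
    simp only [Ex.ok, decide_eq_true_eq] at h
    interval_cases i <;> exact ⟨rfl, rfl, rfl, rfl, rfl, rfl⟩
  | .num z, _ => ⟨rfl, rfl, rfl, rfl, rfl, rfl⟩
  | .add e f, h => by
    simp only [Ex.ok, Bool.and_eq_true] at h
    obtain ⟨⟨v, u⟩, ⟨v', u'⟩, g₀, g₁, g₂, g₃⟩ :=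
      common_spec hC (eval4_spec hC e h.1) (eval4_spec hC f h.2)
    exact ⟨congrArg₂ (· + ·) v v', congrArg₂ (· + ·) u u', g₀, g₁, g₂, g₃⟩
  | .sub e f, h => by
    simp only [Ex.ok, Bool.and_eq_true] at h
    obtain ⟨⟨v, u⟩, ⟨v', u'⟩, g₀, g₁, g₂, g₃⟩ :=
      common_spec hC (eval4_spec hC e h.1) (eval4_spec hC f h.2)
    exact ⟨congrArg₂ (· - ·) v v', congrArg₂ (· + ·) u u', g₀, g₁, g₂, g₃⟩
  | .mul e f, h => by
    simp only [Ex.ok, Bool.and_eq_true] at h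
    obtain ⟨v, u, a₀, a₁, a₂, a₃⟩ := eval4_spec hC e h.1
    obtain ⟨v', u', b₀, b₁, b₂, b₃⟩ := eval4_spec hC f h.2
    exact ⟨congrArg₂ (· * ·) v v', congrArg₂ (· * ·) u u', congrArg₂ (· + ·) a₀ b₀,
      congrArg₂ (· + ·) a₁ b₁, congrArg₂ (· + ·) a₂ b₂, congrArg₂ (· + ·) a₃ b₃⟩
  | .pow e n, h => by
    obtain ⟨v, u, a₀, a₁, a₂, a₃⟩ := eval4_spec hC e (by simpa [Ex.ok] using h)
    exact ⟨congrArg (· ^ n) v, congrArg (· ^ n) u, congrArg (n * ·) a₀, congrArg (n * ·) a₁,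
      congrArg (n * ·) a₂, congrArg (n * ·) a₃⟩

end

theorem hom_congr (C : ℕ → Chart) {t t' : ℕ → ℤ} (h : ∀ i < 4, t i = t' i) :
    ∀ e : Ex, e.ok 4 = true → hom C 4 t e = hom C 4 t' e
  | .var i, hi => by
    simp only [Ex.ok, decide_eq_true_eq] at hi
    simp [hom, h i hi]
  | .num z, _ => rfl
  | .add e f, hok => by
    simp only [Ex.ok, Bool.and_eq_true] at hok
    simp only [hom, hom_congr C h e hok.1, hom_congr C h f hok.2, den_four, h 0 (by norm_num),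
      h 1 (by norm_num), h 2 (by norm_num), h 3 (by norm_num)]
  | .sub e f, hok => by
    simp only [Ex.ok, Bool.and_eq_true] at hok
    simp only [hom, hom_congr C h e hok.1, hom_congr C h f hok.2, den_four, h 0 (by norm_num),
      h 1 (by norm_num), h 2 (by norm_num), h 3 (by norm_num)]
  | .mul e f, hok => by
    simp only [Ex.ok, Bool.and_eq_true] at hok
    simp only [hom, hom_congr C h e hok.1, hom_congr C h f hok.2]
  | .pow e n, hok => by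
    simp only [hom, hom_congr C h e (by simpa [Ex.ok] using hok)]

theorem width_four (D : ℕ → ℕ) : width 3 D = (D 1 + 1) * ((D 2 + 1) * ((D 3 + 1) * 1)) := rfl

/-- **An expression passing the one-pass test is nonnegative on the box.** -/
theorem nonneg_of_checkFour {C : ℕ → Chart} {K a b c d : ℕ} {e : Ex}
    (h : checkFour C K a b c d e = true) {x : ℕ → ℝ}
    (hx : ∀ i < 4, ∃ t : ℝ, 0 ≤ t ∧ 0 < ((C i).c : ℝ) + (C i).d * t ∧
      ((C i).a : ℝ) + (C i).b * t = x i * (((C i).c : ℝ) + (C i).d * t)) :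
    0 ≤ e.eval x := by
  simp only [checkFour, Bool.and_eq_true, decide_eq_true_eq, Nat.beq_eq] at h
  obtain ⟨⟨⟨⟨⟨⟨hC, hok⟩, hK⟩, ⟨⟨e₀, e₁⟩, e₂⟩, e₃⟩, hb⟩, hv⟩, hm⟩ := h
  obtain ⟨sv, sb, s₀, s₁, s₂, s₃⟩ := eval4_spec (K := K) (D := deg4 a b c d) hC e hok
  have hd : ∀ i < 4, deg4 a b c d i = e.deg i := by
    intro i hi
    interval_cases i <;> simp_all [deg4]
  have hbase : ∀ i < 4, base K 4 (deg4 a b c d) i = base K 4 e.deg i := by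
    intro i hi
    interval_cases i <;> simp [base, width, ← hd, show (1 : ℕ) < 4 by norm_num,
      show (2 : ℕ) < 4 by norm_num, show (3 : ℕ) < 4 by norm_num]
  refine nonneg_of_checkNonneg (C := C) (m := 4) (K := K) ?_ hx
  simp only [checkNonneg, Bool.and_eq_true, decide_eq_true_eq, ← hom_congr C hbase e hok, ← sv,
    ← sb]
  refine ⟨⟨⟨⟨hok, hK⟩, ?_⟩, hv⟩, ?_⟩
  · simpa [Nat.blt_eq] using hb
  · rwa [show e.deg 0 = a by rw [← s₀, e₀], show width (4 - 1) e.deg = width 3 (deg4 a b c d) by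
      simp [width_four, ← hd, show (1 : ℕ) < 4 by norm_num, show (2 : ℕ) < 4 by norm_num,
        show (3 : ℕ) < 4 by norm_num]]

end Vale.Agent.P100.Pack
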