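import Mathlib
import Vale.Agent.P100.Pack.Same

/-!
# One pass evaluation for the packed tests

`run` returns the degrees, the homogenised value and the bound of an expression in one recursion,
so a check costs one traversal. `checkFastR`, `checkNonnegR` and `checkSameR` are the tests of
`Mask` and `Same` with this evaluator.
-/

namespace Vale.Agent.P100.Pack

/-- The result of one pass. -/
structure Res where
  /-- degrees -/
  deg : List ℕ
  /-- homogenised value -/
  val : ℤ
  /-- bound -/
  bd : ℕ

/-- Indicator list. -/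
def unit1 : ℕ → ℕ → List ℕ
  | 0, _ => []
  | m + 1, 0 => 1 :: List.replicate m 0
  | m + 1, i + 1 => 0 :: unit1 m i

/-- `v * ∏ ds i ^ ks i`. -/
def mulPow {α : Type} [Monoid α] : List α → List ℕ → α → α
  | d :: ds, k :: ks, v => mulPow ds ks (bif Nat.beq k 0 then v else v * d ^ k)
  | _, _, v => v

/-- Positionwise operation. -/
def zipN (f : ℕ → ℕ → ℕ) : List ℕ → List ℕ → List ℕ
  | a :: as, b :: bs => f a b :: zipN f as bs
  | _, _ => []

/-- Sum node. -/
def addRes (D : List ℤ) (B : List ℕ) (op : ℤ → ℤ → ℤ) (r s : Res) : Res :=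
  match r, s with
  | ⟨d, v, b⟩, ⟨d', v', b'⟩ =>
    ⟨zipN max d d', op (mulPow D (zipN (fun x y => max x y - x) d d') v)
        (mulPow D (zipN (fun x y => max x y - y) d d') v'),
      mulPow B (zipN (fun x y => max x y - x) d d') b +
        mulPow B (zipN (fun x y => max x y - y) d d') b'⟩

/-- Product node. -/
def mulRes (r s : Res) : Res :=
  match r, s with
  | ⟨d, v, b⟩, ⟨d', v', b'⟩ => ⟨zipN (· + ·) d d', v * v', b * b'⟩

/-- Power node. -/
def powRes (r : Res) (n : ℕ) : Res :=
  match r with
  | ⟨d, v, b⟩ => ⟨d.map (n * ·), v ^ n, b ^ n⟩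

/-- One pass over the expression. -/
def run (m : ℕ) (L : List ℤ) (D : List ℤ) (LB B : List ℕ) : Ex → Res
  | .var i => ⟨unit1 m i, L.getD i 0, LB.getD i 0⟩
  | .num z => ⟨List.replicate m 0, z, z.natAbs⟩
  | .add e f => addRes D B (· + ·) (run m L D LB B e) (run m L D LB B f)
  | .sub e f => addRes D B (· - ·) (run m L D LB B e) (run m L D LB B f)
  | .mul e f => mulRes (run m L D LB B e) (run m L D LB B f)
  | .pow e n => powRes (run m L D LB B e) n

/-- The pass at the point `t`. -/
def runAt (C : ℕ → Chart) (m : ℕ) (t : ℕ → ℤ) (e : Ex) : Res :=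
  run m ((List.range m).map fun i => (C i).a + (C i).b * t i)
    ((List.range m).map fun i => (C i).c + (C i).d * t i)
    ((List.range m).map fun i => (C i).a.natAbs + (C i).b.natAbs)
    ((List.range m).map fun i => (C i).c.natAbs + (C i).d.natAbs) e

theorem getElem?_unit1 : ∀ m i j, j < m → (unit1 m i)[j]? = some (if i = j then 1 else 0)
  | 0, _, _, h => absurd h (Nat.not_lt_zero _)
  | m + 1, 0, 0, _ => rfl
  | m + 1, 0, j + 1, h => by simp [unit1, show j < m by omega]
  | m + 1, i + 1, 0, _ => rfl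
  | m + 1, i + 1, j + 1, h => by simp [unit1, getElem?_unit1 m i j (by omega)]

theorem length_unit1 : ∀ m i, (unit1 m i).length = m
  | 0, _ => rfl
  | m + 1, 0 => by simp [unit1]
  | m + 1, i + 1 => by simp [unit1, length_unit1 m i]

theorem zipN_range (f : ℕ → ℕ → ℕ) (m : ℕ) (a b : ℕ → ℕ) :
    zipN f ((List.range m).map a) ((List.range m).map b) =
      (List.range m).map fun i => f (a i) (b i) := by
  induction m generalizing a b with
  | zero => rfl
  | succ m ih => simp [List.range_succ_eq_map, List.map_map, zipN, ih, Function.comp_def]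

theorem mulPow_range {α : Type} [CommMonoid α] (m : ℕ) (d : ℕ → α) (k : ℕ → ℕ) (v : α) :
    mulPow ((List.range m).map d) ((List.range m).map k) v =
      v * ∏ i ∈ Finset.range m, d i ^ k i := by
  induction m generalizing d k v with
  | zero => simp [mulPow]
  | succ m ih =>
    simp only [List.range_succ_eq_map, List.map_cons, List.map_map, mulPow, Function.comp_def,
      Nat.succ_eq_add_one]
    rw [ih, Finset.prod_range_succ']
    rcases Nat.eq_zero_or_pos (k 0) with h | h
    · simp [h]
    · rw [show Nat.beq (k 0) 0 = false from Bool.eq_false_iff.2 fun hb => h.ne' (Nat.eq_of_beq_eq_true hb),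
        cond_false]
      rw [mul_comm (∏ _ ∈ _, _), mul_assoc]

theorem prodTo_eq {α : Type} [CommMonoid α] (f : ℕ → α) :
    ∀ n, prodTo 1 (· * ·) f n = ∏ i ∈ Finset.range n, f i
  | 0 => by simp [prodTo]
  | n + 1 => by rw [prodTo, prodTo_eq f n, Finset.prod_range_succ]

theorem runAt_eq (C : ℕ → Chart) (m : ℕ) (t : ℕ → ℤ) : ∀ e : Ex, e.ok m = true →
    runAt C m t e = ⟨(List.range m).map e.deg, hom C m t e, bound C m e⟩
  | .var i, h => by
    simp only [Ex.ok, decide_eq_true_eq] at h
    simp only [runAt, run, hom, bound, Res.mk.injEq, Int.cast_id]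
    refine ⟨List.ext_getElem? fun j => ?_, by simp [h], by simp [h]⟩
    rcases lt_or_ge j m with hj | hj
    · simp [getElem?_unit1 m i j hj, hj, Ex.deg]
    · rw [List.getElem?_eq_none (by simp [length_unit1, hj]),
        List.getElem?_eq_none (by simp [hj])]
  | .num z, _ => by
    simp [runAt, run, hom, bound, Ex.deg, List.map_const']
  | .add e f, h => by
    simp only [Ex.ok, Bool.and_eq_true] at h
    have h1 := runAt_eq C m t e h.1
    have h2 := runAt_eq C m t f h.2
    simp only [runAt] at h1 h2 ⊢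
    rw [run, h1, h2]
    simp only [addRes, zipN_range, mulPow_range, hom, bound, den, denB, prodTo_eq, Ex.deg,
      Int.cast_id]
  | .sub e f, h => by
    simp only [Ex.ok, Bool.and_eq_true] at h
    have h1 := runAt_eq C m t e h.1
    have h2 := runAt_eq C m t f h.2
    simp only [runAt] at h1 h2 ⊢
    rw [run, h1, h2]
    simp only [addRes, zipN_range, mulPow_range, hom, bound, den, denB, prodTo_eq, Ex.deg,
      Int.cast_id]
  | .mul e f, h => by
    simp only [Ex.ok, Bool.and_eq_true] at h
    have h1 := runAt_eq C m t e h.1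
    have h2 := runAt_eq C m t f h.2
    simp only [runAt] at h1 h2 ⊢
    rw [run, h1, h2]
    simp only [mulRes, zipN_range, hom, bound, Ex.deg]
  | .pow e n, h => by
    simp only [Ex.ok] at h
    have h1 := runAt_eq C m t e h
    simp only [runAt] at h1 ⊢
    rw [run, h1]
    simp only [powRes, hom, bound, Ex.deg, List.map_map, Function.comp_def]

/-- The degree function read from a list. -/
def degOf (l : List ℕ) (i : ℕ) : ℕ := l.getD i 0

theorem width_congr : ∀ (m : ℕ) {D D' : ℕ → ℕ}, (∀ i ≤ m, D i = D' i) → width m D = width m D'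
  | 0, _, _, _ => rfl
  | m + 1, D, D', h => by
    simp only [width, h 1 (by omega)]
    rw [width_congr m fun i hi => h (i + 1) (by omega)]

theorem base_congr (K : ℕ) : ∀ (m : ℕ) {D D' : ℕ → ℕ}, (∀ i < m, D i = D' i) →
    ∀ i < m, base K m D i = base K m D' i
  | 0, _, _, _, i, hi => absurd hi (Nat.not_lt_zero i)
  | m + 1, D, D', h, 0, _ => by
    simp only [base, Nat.add_sub_cancel]
    rw [width_congr m fun i hi => h i (by omega)]
  | m + 1, D, D', h, i + 1, hi => by
    simp only [base, Nat.add_sub_cancel]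
    exact base_congr K m (fun j hj => h (j + 1) (by omega)) i (by omega)

theorem runAt_congr (C : ℕ → Chart) (m : ℕ) {t t' : ℕ → ℤ} (h : ∀ i < m, t i = t' i) (e : Ex) :
    runAt C m t e = runAt C m t' e := by
  have h1 : ((List.range m).map fun i => (C i).a + (C i).b * t i) =
      (List.range m).map fun i => (C i).a + (C i).b * t' i :=
    List.map_congr_left fun i hi => by rw [h i (List.mem_range.1 hi)]
  have h2 : ((List.range m).map fun i => (C i).c + (C i).d * t i) =
      (List.range m).map fun i => (C i).c + (C i).d * t' i :=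
    List.map_congr_left fun i hi => by rw [h i (List.mem_range.1 hi)]
  simp only [runAt, h1, h2]

/-- The packing data: the degrees of the pass at `0`, then the pass at the packing point. -/
def packed (C : ℕ → Chart) (m K : ℕ) (l : List ℕ) (e : Ex) : Res :=
  runAt C m (base K m (degOf l)) e

/-- The sign test with one pass; `l` must be the degrees. -/
def checkNonnegR (C : ℕ → Chart) (m K : ℕ) (l : List ℕ) (e : Ex) : Bool :=
  e.ok m && decide (1 ≤ K) &&
    match packed C m K l e with
    | ⟨d, v, b⟩ => decide (d = l) && decide (2 * b < 2 ^ K) && decide (0 ≤ v) &&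
        maskDigits K ((degOf l 0 + 1) * width (m - 1) (degOf l)) v.toNat

/-- The sign test with the value at the corner. -/
def checkFastR (C : ℕ → Chart) (m K : ℕ) (l : List ℕ) (e : Ex) : Bool :=
  checkNonnegR C m K l e && decide (0 < (runAt C m (fun _ => 0) e).val)

/-- The equality test with one pass. -/
def checkSameR (m K : ℕ) (l : List ℕ) (e f : Ex) : Bool :=
  (e.sub f).ok m && decide (1 ≤ K) &&
    match packed (fun _ => idChart) m K l (e.sub f) with
    | ⟨d, v, b⟩ => decide (d = l) && decide (2 * b < 2 ^ K) && decide (v = 0)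

theorem packed_spec {C : ℕ → Chart} {m K : ℕ} {l : List ℕ} {e : Ex} (hok : e.ok m = true)
    {d : List ℕ} {v : ℤ} {b : ℕ} (hp : packed C m K l e = ⟨d, v, b⟩) (hd : d = l) :
    v = hom C m (base K m e.deg) e ∧ b = bound C m e ∧ ∀ i < m, degOf l i = e.deg i := by
  rw [packed, runAt_eq C m _ e hok] at hp
  obtain ⟨rfl, rfl, rfl⟩ : (List.range m).map e.deg = d ∧
    hom C m (base K m (degOf l)) e = v ∧ bound C m e = b := by simpa using hp
  have hl : ∀ i < m, degOf l i = e.deg i := fun i hi => by simp [← hd, degOf, hi]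
  refine ⟨?_, rfl, hl⟩
  have := runAt_congr C m (base_congr K m hl) e
  rw [runAt_eq C m _ e hok, runAt_eq C m _ e hok] at this
  exact congrArg Res.val this

theorem checkNonneg_of_R {C : ℕ → Chart} {m K : ℕ} {l : List ℕ} {e : Ex} (hm : 1 ≤ m)
    (h : checkNonnegR C m K l e = true) : checkNonneg C m K e = true := by
  simp only [checkNonnegR, Bool.and_eq_true] at h
  obtain ⟨⟨hok, hK⟩, h⟩ := h
  obtain ⟨d, v, b, hp⟩ : ∃ d v b, packed C m K l e = ⟨d, v, b⟩ := ⟨_, _, _, rfl⟩
  rw [hp] at h
  simp only [decide_eq_true_eq] at h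
  obtain ⟨⟨⟨hd, hb⟩, hv⟩, hz⟩ := h
  obtain ⟨rfl, rfl, hl⟩ := packed_spec hok hp hd
  rw [hl 0 hm, width_congr (m - 1) fun i hi => hl i (by omega)] at hz
  simp [checkNonneg, hok, of_decide_eq_true hK, hb, hv, hz]

/-- **An expression passing the one pass sign test is nonnegative on the box.** -/
theorem nonneg_of_checkNonnegR {C : ℕ → Chart} {m K : ℕ} {l : List ℕ} {e : Ex} (hm : 1 ≤ m)
    (h : checkNonnegR C m K l e = true) {x : ℕ → ℝ}
    (hx : ∀ i < m, ∃ t : ℝ, 0 ≤ t ∧ 0 < ((C i).c : ℝ) + (C i).d * t ∧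
      ((C i).a : ℝ) + (C i).b * t = x i * (((C i).c : ℝ) + (C i).d * t)) :
    0 ≤ e.eval x :=
  nonneg_of_checkNonneg (checkNonneg_of_R hm h) hx

/-- **An expression passing the one pass strict test is positive on the box.** -/
theorem pos_of_checkFastR {C : ℕ → Chart} {m K : ℕ} {l : List ℕ} {e : Ex} (hm : 1 ≤ m)
    (h : checkFastR C m K l e = true) {x : ℕ → ℝ}
    (hx : ∀ i < m, ∃ t : ℝ, 0 ≤ t ∧ 0 < ((C i).c : ℝ) + (C i).d * t ∧
      ((C i).a : ℝ) + (C i).b * t = x i * (((C i).c : ℝ) + (C i).d * t)) :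
    0 < e.eval x := by
  simp only [checkFastR, Bool.and_eq_true] at h
  have h1 := checkNonneg_of_R hm h.1
  have h2 := h.2
  have hok : e.ok m = true := by
    simp only [checkNonneg, Bool.and_eq_true] at h1
    exact h1.1.1.1.1
  rw [runAt_eq C m _ e hok] at h2
  refine pos_of_checkFast (C := C) (m := m) (K := K) ?_ hx
  simp only [checkNonneg, Bool.and_eq_true] at h1
  simp [checkFast, h1, of_decide_eq_true h2]

/-- **Two expressions passing the one pass equality test are equal.** -/
theorem eval_eq_of_checkSameR {m K : ℕ} {l : List ℕ} {e f : Ex}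
    (h : checkSameR m K l e f = true) (x : ℕ → ℝ) : e.eval x = f.eval x := by
  simp only [checkSameR, Bool.and_eq_true] at h
  obtain ⟨⟨hok, hK⟩, h⟩ := h
  obtain ⟨d, v, b, hp⟩ : ∃ d v b, packed (fun _ => idChart) m K l (e.sub f) = ⟨d, v, b⟩ :=
    ⟨_, _, _, rfl⟩
  rw [hp] at h
  simp only [decide_eq_true_eq] at h
  obtain ⟨⟨hd, hb⟩, hv⟩ := h
  obtain ⟨rfl, rfl, -⟩ := packed_spec hok hp hd
  refine eval_eq_of_checkSame (m := m) (K := K) ?_ x
  simp only [checkSame, Bool.and_eq_true, decide_eq_true_eq]
  exact ⟨⟨⟨hok, of_decide_eq_true hK⟩, hb⟩, hv⟩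

end Vale.Agent.P100.Pack
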