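import Mathlib
import Vale.Agent.P100.Pack.Same

/-!
# Sign tests for linear combinations of sparse polynomials in five variables

A polynomial is a nested coefficient list, lowest power first, its coefficients split in positive
and negative parts. On a chart it is evaluated at the packing point by the recursor with natural
number arithmetic only, so the kernel needs a few operations for each coefficient.
-/

namespace Vale.Agent.P100.Pack.Dense

/-- A polynomial in five variables. -/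
abbrev Q5 := List (List (List (List (List (ℕ × ℕ)))))

/-- The integer of a pair. -/
def vz (p : ℕ × ℕ) : ℤ := (p.1 : ℤ) - p.2

/-- One Horner step. -/
def step (c : ℕ × ℕ) (P : ℕ) (N r : ℕ × ℕ) : ℕ × ℕ :=
  (Nat.add (Nat.mul c.1 P) (Nat.add (Nat.mul N.1 r.1) (Nat.mul N.2 r.2)),
    Nat.add (Nat.mul c.2 P) (Nat.add (Nat.mul N.1 r.2) (Nat.mul N.2 r.1)))

/-- One level, homogenised to degree `n`. -/
noncomputable def lev {α : Type} (f : α → ℕ × ℕ) (N : ℕ × ℕ) (D n : ℕ) (l : List α) : ℕ × ℕ :=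
  List.rec (motive := fun _ => ℕ → ℕ × ℕ) (fun _ => (0, 0))
    (fun c _ g k => step (f c) (Nat.pow D k) N (g (Nat.sub k 1))) l n

/-- The level in a ring. -/
def levV {α R : Type} [CommRing R] (f : α → R) (N D : R) : List α → ℕ → R
  | [], _ => 0
  | c :: l, k => f c * D ^ k + N * levV f N D l (k - 1)

/-- The level on coefficient lists. -/
def levR {α : Type} {m : ℕ} (f : α → Rep m) (N D : Rep m) : List α → ℕ → Rep m
  | [], _ => cst m 0
  | [c], k => mul m (f c) (rpow m D k)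
  | c :: l, k => add m (mul m (f c) (rpow m D k)) (mul m N (levR f N D l (k - 1)))

theorem vz_lev {α : Type} (f : α → ℕ × ℕ) (N : ℕ × ℕ) (D : ℕ) : ∀ (l : List α) (n : ℕ),
    vz (lev f N D n l) = levV (fun c => vz (f c)) (vz N) (D : ℤ) l n
  | [], _ => rfl
  | c :: l, n => by
    show vz (step (f c) (Nat.pow D n) N (lev f N D (Nat.sub n 1) l)) = _
    rw [show Nat.sub n 1 = n - 1 from rfl]
    simp only [levV, ← vz_lev f N D l (n - 1)]
    simp only [step, vz, Nat.add_eq, Nat.mul_eq, Nat.pow_eq]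
    push_cast; ring

theorem ev_levR {α : Type} {m : ℕ} {R : Type} [CommRing R] (x : ℕ → R) (f : α → Rep m)
    (N D : Rep m) : ∀ (l : List α) (n : ℕ),
    ev m x (levR f N D l n) = levV (fun c => ev m x (f c)) (ev m x N) (ev m x D) l n
  | [], _ => by simp [levR, levV, ev_cst]
  | [c], n => by simp [levR, levV, ev_mul, ev_rpow]
  | c :: c' :: l, n => by
    simp [levR, levV, ev_add, ev_mul, ev_rpow, ev_levR x f N D (c' :: l) (n - 1)]

theorem nrm_levR {α : Type} {m : ℕ} (f : α → Rep m) {N D : Rep m} {M : ℕ} (g : α → ℕ)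
    (hN : nrm m N ≤ M) (hD : nrm m D ≤ M) :
    ∀ (l : List α) (n : ℕ), (∀ c ∈ l, nrm m (f c) ≤ g c) → l.length ≤ n + 1 →
      nrm m (levR f N D l n) ≤ M ^ n * (l.map g).sum
  | [], n, _, _ => by simp [levR, nrm_cst]
  | [c], n, hf, _ => by
    simp only [levR, List.map_cons, List.map_nil, List.sum_cons, List.sum_nil, add_zero]
    exact (nrm_mul m _ _).trans ((Nat.mul_le_mul (hf c List.mem_cons_self)
      (nrm_rpow m D hD n)).trans (Nat.le_of_eq (Nat.mul_comm _ _)))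
  | c :: c' :: l, 0, _, h => absurd h (by simp)
  | c :: c' :: l, n + 1, hf, h => by
    have ih := nrm_levR f g hN hD (c' :: l) n
      (fun b hb => hf b (List.mem_cons_of_mem _ hb)) (Nat.le_of_succ_le_succ h)
    simp only [levR, List.map_cons, List.sum_cons, Nat.mul_add, Nat.add_sub_cancel] at ih ⊢
    refine (nrm_add m _ _).trans (Nat.add_le_add ?_ ?_)
    · exact (nrm_mul m _ _).trans ((Nat.mul_le_mul (hf c List.mem_cons_self)
        (nrm_rpow m D hD _)).trans (Nat.le_of_eq (Nat.mul_comm _ _)))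
    · refine (nrm_mul m _ _).trans ((Nat.mul_le_mul hN ih).trans (Nat.le_of_eq ?_))
      ring

theorem fits_levR {α : Type} {m : ℕ} {f : α → Rep m} {N D : Rep m} {F E : ℕ → ℕ}
    (hN : Fits m E N) (hD : Fits m E D) :
    ∀ (l : List α) (n : ℕ), (∀ c ∈ l, Fits m F (f c)) → l.length ≤ n + 1 →
      Fits m (fun j => F j + n * E j) (levR f N D l n)
  | [], n, _, _ => fits_cst m _ 0
  | [c], n, hf, _ => fits_mul m (hf c List.mem_cons_self) (fits_rpow m hD n)
  | c :: c' :: l, 0, _, h => absurd h (by simp)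
  | c :: c' :: l, n + 1, hf, h => by
    refine fits_add m (fits_mul m (hf c List.mem_cons_self) (fits_rpow m hD _)) ?_
    exact fits_mono m (fun j => Nat.le_of_eq (by ring))
      (fits_mul m hN (fits_levR hN hD (c' :: l) n (fun b hb => hf b (List.mem_cons_of_mem _ hb))
        (Nat.le_of_succ_le_succ h)))

theorem levV_eq {α : Type} {R : Type} [Field R] (g : α → R) (N D x : R) (hx : N = x * D) :
    ∀ (l : List α) (n : ℕ), l.length ≤ n + 1 → levV g N D l n = D ^ n * evL g x l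
  | [], _, _ => by simp [levV, evL]
  | c :: l, n, h => by
    rcases n with - | n
    · obtain rfl : l = [] := by simpa using h
      simp [levV, evL]
    · simp only [levV, evL, Nat.add_sub_cancel]
      rw [levV_eq g N D x hx l n (Nat.le_of_succ_le_succ h), hx]
      ring

/-- Value at a real point. -/
noncomputable def val (y : ℕ → ℝ) (p : Q5) : ℝ :=
  evL (evL (evL (evL (evL (fun c : ℕ × ℕ => (vz c : ℝ)) (y 4)) (y 3)) (y 2)) (y 1)) (y 0) p

/-- Five levels. -/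
noncomputable def ev5 (n : ℕ → ℕ) (N : ℕ → ℕ × ℕ) (D : ℕ → ℕ) (p : Q5) : ℕ × ℕ :=
  lev (fun p1 => lev (fun p2 => lev (fun p3 => lev (fun p4 => lev (fun c => c) (N 4) (D 4) (n 4) p4)
    (N 3) (D 3) (n 3) p3) (N 2) (D 2) (n 2) p2) (N 1) (D 1) (n 1) p1) (N 0) (D 0) (n 0) p

/-- Five levels in a ring. -/
def ev5V {R : Type} [CommRing R] (n : ℕ → ℕ) (N D : ℕ → R) (p : Q5) : R :=
  levV (fun p1 => levV (fun p2 => levV (fun p3 => levV (fun p4 =>
    levV (fun c => ((vz c : ℤ) : R)) (N 4) (D 4) p4 (n 4))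
    (N 3) (D 3) p3 (n 3)) (N 2) (D 2) p2 (n 2)) (N 1) (D 1) p1 (n 1)) (N 0) (D 0) p (n 0)

/-- Five levels on coefficient lists. -/
def ev5R (n : ℕ → ℕ) (N D : ℕ → Rep 5) (p : Q5) : Rep 5 :=
  levR (fun p1 => levR (fun p2 => levR (fun p3 => levR (fun p4 =>
    levR (fun c => cst 5 (vz c)) (N 4) (D 4) p4 (n 4))
    (N 3) (D 3) p3 (n 3)) (N 2) (D 2) p2 (n 2)) (N 1) (D 1) p1 (n 1)) (N 0) (D 0) p (n 0)

theorem vz_ev5 (n : ℕ → ℕ) (N : ℕ → ℕ × ℕ) (D : ℕ → ℕ) (p : Q5) :
    vz (ev5 n N D p) = ev5V n (fun i => vz (N i)) (fun i => (D i : ℤ)) p := by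
  simp [ev5, ev5V, vz_lev]

theorem ev_ev5R {R : Type} [CommRing R] (x : ℕ → R) (n : ℕ → ℕ) (N D : ℕ → Rep 5) (p : Q5) :
    ev 5 x (ev5R n N D p) = ev5V n (fun i => ev 5 x (N i)) (fun i => ev 5 x (D i)) p := by
  simp [ev5R, ev5V, ev_levR, ev_cst]

theorem levV_congr {α R : Type} [CommRing R] {f g : α → R} (N D : R) :
    ∀ (l : List α) (n : ℕ), (∀ c ∈ l, f c = g c) → levV f N D l n = levV g N D l n
  | [], _, _ => rfl
  | c :: l, n, h => by
    simp only [levV, h c List.mem_cons_self,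
      levV_congr N D l (n - 1) fun b hb => h b (List.mem_cons_of_mem _ hb)]

theorem evL_mul {α R : Type} [CommRing R] (k : R) (g : α → R) (x : R) :
    ∀ l : List α, evL (fun c => k * g c) x l = k * evL g x l
  | [] => by simp [evL]
  | c :: l => by simp only [evL, evL_mul k g x l]; ring

/-- All lists fit in the degrees. -/
def shape (n : ℕ → ℕ) (p : Q5) : Bool :=
  decide (p.length ≤ n 0 + 1) && p.all fun p1 => decide (p1.length ≤ n 1 + 1) &&
    p1.all fun p2 => decide (p2.length ≤ n 2 + 1) && p2.all fun p3 =>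
      decide (p3.length ≤ n 3 + 1) && p3.all fun p4 => decide (p4.length ≤ n 4 + 1)

/-- The absolute sum of the coefficients. -/
def size (p : Q5) : ℕ :=
  (p.map fun p1 => (p1.map fun p2 => (p2.map fun p3 => (p3.map fun p4 =>
    (p4.map fun c => c.1 + c.2).sum).sum).sum).sum).sum

theorem ev5V_eq {R : Type} [Field R] {n : ℕ → ℕ} {p : Q5} (hs : shape n p = true) (y : ℕ → R)
    (N D : ℕ → R) (h : ∀ i, i < 5 → N i = y i * D i) :
    ev5V n N D p = (D 0 ^ n 0 * D 1 ^ n 1 * D 2 ^ n 2 * D 3 ^ n 3 * D 4 ^ n 4) *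
      evL (evL (evL (evL (evL (fun c : ℕ × ℕ => ((vz c : ℤ) : R)) (y 4)) (y 3)) (y 2)) (y 1))
        (y 0) p := by
  simp only [shape, Bool.and_eq_true, List.all_eq_true, decide_eq_true_eq] at hs
  obtain ⟨h0, hs⟩ := hs
  unfold ev5V
  rw [levV_congr (g := fun p1 => (D 1 ^ n 1 * D 2 ^ n 2 * D 3 ^ n 3 * D 4 ^ n 4) *
    evL (evL (evL (evL (fun c : ℕ × ℕ => ((vz c : ℤ) : R)) (y 4)) (y 3)) (y 2)) (y 1) p1),
    levV_eq _ _ _ _ (h 0 (by norm_num)) _ _ h0, evL_mul]
  · ring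
  intro p1 hp1
  obtain ⟨h1, hs⟩ := hs p1 hp1
  rw [levV_congr (g := fun p2 => (D 2 ^ n 2 * D 3 ^ n 3 * D 4 ^ n 4) *
    evL (evL (evL (fun c : ℕ × ℕ => ((vz c : ℤ) : R)) (y 4)) (y 3)) (y 2) p2),
    levV_eq _ _ _ _ (h 1 (by norm_num)) _ _ h1, evL_mul]
  · ring
  intro p2 hp2
  obtain ⟨h2, hs⟩ := hs p2 hp2
  rw [levV_congr (g := fun p3 => (D 3 ^ n 3 * D 4 ^ n 4) *
    evL (evL (fun c : ℕ × ℕ => ((vz c : ℤ) : R)) (y 4)) (y 3) p3),
    levV_eq _ _ _ _ (h 2 (by norm_num)) _ _ h2, evL_mul]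
  · ring
  intro p3 hp3
  obtain ⟨h3, hs⟩ := hs p3 hp3
  rw [levV_congr (g := fun p4 => (D 4 ^ n 4) *
    evL (fun c : ℕ × ℕ => ((vz c : ℤ) : R)) (y 4) p4),
    levV_eq _ _ _ _ (h 3 (by norm_num)) _ _ h3, evL_mul]
  · ring
  intro p4 hp4
  exact levV_eq _ _ _ _ (h 4 (by norm_num)) _ _ (hs p4 hp4)

theorem nrm_ev5R {n : ℕ → ℕ} {p : Q5} (hs : shape n p = true) {N D : ℕ → Rep 5} {M : ℕ → ℕ}
    (hN : ∀ i, nrm 5 (N i) ≤ M i) (hD : ∀ i, nrm 5 (D i) ≤ M i) :
    nrm 5 (ev5R n N D p) ≤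
      (M 0 ^ n 0 * M 1 ^ n 1 * M 2 ^ n 2 * M 3 ^ n 3 * M 4 ^ n 4) * size p := by
  simp only [shape, Bool.and_eq_true, List.all_eq_true, decide_eq_true_eq] at hs
  obtain ⟨h0, hs⟩ := hs
  refine le_trans (nrm_levR _ (fun p1 => (M 1 ^ n 1 * M 2 ^ n 2 * M 3 ^ n 3 * M 4 ^ n 4) *
    (p1.map fun p2 => (p2.map fun p3 => (p3.map fun p4 =>
      (p4.map fun c : ℕ × ℕ => c.1 + c.2).sum).sum).sum).sum) (hN 0) (hD 0) p _ ?_ h0) ?_
  · intro p1 hp1
    obtain ⟨h1, hs⟩ := hs p1 hp1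
    refine le_trans (nrm_levR _ (fun p2 => (M 2 ^ n 2 * M 3 ^ n 3 * M 4 ^ n 4) *
      (p2.map fun p3 => (p3.map fun p4 => (p4.map fun c : ℕ × ℕ => c.1 + c.2).sum).sum).sum)
      (hN 1) (hD 1) p1 _ ?_ h1) ?_
    · intro p2 hp2
      obtain ⟨h2, hs⟩ := hs p2 hp2
      refine le_trans (nrm_levR _ (fun p3 => (M 3 ^ n 3 * M 4 ^ n 4) *
        (p3.map fun p4 => (p4.map fun c : ℕ × ℕ => c.1 + c.2).sum).sum)
        (hN 2) (hD 2) p2 _ ?_ h2) ?_
      · intro p3 hp3
        obtain ⟨h3, hs⟩ := hs p3 hp3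
        refine le_trans (nrm_levR _ (fun p4 => (M 4 ^ n 4) *
          (p4.map fun c : ℕ × ℕ => c.1 + c.2).sum)
          (hN 3) (hD 3) p3 _ ?_ h3) ?_
        · intro p4 hp4
          refine nrm_levR _ (fun c : ℕ × ℕ => c.1 + c.2) (hN 4) (hD 4) p4 _ ?_ (hs p4 hp4)
          intro c _
          rw [nrm_cst, vz]
          omega
        · exact Nat.le_of_eq (by rw [List.sum_map_mul_left]; ring)
      · exact Nat.le_of_eq (by rw [List.sum_map_mul_left]; ring)
    · exact Nat.le_of_eq (by rw [List.sum_map_mul_left]; ring)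
  · exact Nat.le_of_eq (by rw [size, List.sum_map_mul_left]; ring)

/-- The unit degree. -/
def unit (i j : ℕ) : ℕ := if i = j then 1 else 0

theorem fits_ev5R {n : ℕ → ℕ} {p : Q5} (hs : shape n p = true) {N D : ℕ → Rep 5}
    (hN : ∀ i, Fits 5 (unit i) (N i)) (hD : ∀ i, Fits 5 (unit i) (D i)) :
    Fits 5 (fun j => n 0 * unit 0 j + n 1 * unit 1 j + n 2 * unit 2 j + n 3 * unit 3 j +
      n 4 * unit 4 j) (ev5R n N D p) := by
  simp only [shape, Bool.and_eq_true, List.all_eq_true, decide_eq_true_eq] at hs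
  obtain ⟨h0, hs⟩ := hs
  refine fits_mono 5 (D := fun j => (((((0 + n 4 * unit 4 j) + n 3 * unit 3 j) + n 2 * unit 2 j) +
      n 1 * unit 1 j) + n 0 * unit 0 j)) (fun j => Nat.le_of_eq (by ring))
    (fits_levR (hN 0) (hD 0) p _ (fun p1 hp1 => ?_) h0)
  obtain ⟨h1, hs⟩ := hs p1 hp1
  refine fits_levR (hN 1) (hD 1) p1 _ (fun p2 hp2 => ?_) h1
  obtain ⟨h2, hs⟩ := hs p2 hp2
  refine fits_levR (hN 2) (hD 2) p2 _ (fun p3 hp3 => ?_) h2
  obtain ⟨h3, hs⟩ := hs p3 hp3
  refine fits_levR (hN 3) (hD 3) p3 _ (fun p4 hp4 => ?_) h3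
  exact fits_levR (hN 4) (hD 4) p4 _ (fun c _ => fits_cst 5 _ _) (hs p4 hp4)

/-- The pair of the numerator of a chart at `T`. -/
def cN (c : Chart) (T : ℕ) : ℕ × ℕ :=
  (Nat.add c.a.toNat (Nat.mul c.b.toNat T), Nat.add (-c.a).toNat (Nat.mul (-c.b).toNat T))

/-- The denominator of a chart at `T`. -/
def cD (c : Chart) (T : ℕ) : ℕ := Nat.add c.c.toNat (Nat.mul c.d.toNat T)

/-- The packing point. -/
def pt (K : ℕ) (n : List ℕ) : ℕ → ℕ
  | 0 => Nat.pow 2 (K * width 4 (degOf n))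
  | 1 => Nat.pow 2 (K * width 3 fun j => degOf n (j + 1))
  | 2 => Nat.pow 2 (K * width 2 fun j => degOf n (j + 2))
  | 3 => Nat.pow 2 (K * width 1 fun j => degOf n (j + 3))
  | _ => Nat.pow 2 K
where
  /-- The degree function read from a list. -/
  degOf (l : List ℕ) (i : ℕ) : ℕ := l.getD i 0

/-- The value of one polynomial at the packing point. -/
noncomputable def evAt (C : ℕ → Chart) (K : ℕ) (n : List ℕ) (p : Q5) : ℕ × ℕ :=
  ev5 (pt.degOf n) (fun i => cN (C i) (pt K n i)) (fun i => cD (C i) (pt K n i)) p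

/-- A term: coefficient, a bound of the size, the polynomial. -/
abbrev Term := (ℕ × ℕ) × ℕ × Q5

/-- The value of a combination. -/
noncomputable def comb (C : ℕ → Chart) (K : ℕ) (n : List ℕ) : List Term → ℕ × ℕ
  | [] => (0, 0)
  | t :: ts =>
    (Nat.add (Nat.add (Nat.mul t.1.1 (evAt C K n t.2.2).1) (Nat.mul t.1.2 (evAt C K n t.2.2).2))
      (comb C K n ts).1,
    Nat.add (Nat.add (Nat.mul t.1.1 (evAt C K n t.2.2).2) (Nat.mul t.1.2 (evAt C K n t.2.2).1))
      (comb C K n ts).2)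

/-- The larger coefficient sum of a chart. -/
def cM (c : Chart) : ℕ := max (c.a.natAbs + c.b.natAbs) (c.c.natAbs + c.d.natAbs)

/-- The weight of a combination. -/
def weight : List Term → ℕ
  | [] => 0
  | t :: ts => (t.1.1 + t.1.2) * t.2.1 + weight ts

/-- The combination is nonnegative on the box. -/
noncomputable def check (C : ℕ → Chart) (K : ℕ) (n : List ℕ) (ts : List Term) : Bool :=
  decide (1 ≤ K) && ((List.range 5).all fun i => decide (0 ≤ (C i).c) && decide (0 ≤ (C i).d)) &&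
    Nat.ble (2 * (weight ts * (cM (C 0) ^ pt.degOf n 0 * cM (C 1) ^ pt.degOf n 1 *
      cM (C 2) ^ pt.degOf n 2 * cM (C 3) ^ pt.degOf n 3 * cM (C 4) ^ pt.degOf n 4)) + 1)
      (2 ^ K) &&
    Nat.ble (comb C K n ts).2 (comb C K n ts).1 &&
    maskDigits K ((pt.degOf n 0 + 1) * width 4 (pt.degOf n))
      (Nat.sub (comb C K n ts).1 (comb C K n ts).2)

/-- A polynomial with its bound is well formed. -/
def wf (n : List ℕ) (t : ℕ × Q5) : Bool := shape (pt.degOf n) t.2 && Nat.ble (size t.2) t.1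

/-- The value of a combination at a real point. -/
noncomputable def combVal (y : ℕ → ℝ) : List Term → ℝ
  | [] => 0
  | t :: ts => (vz t.1 : ℝ) * val y t.2.2 + combVal y ts

/-- The coefficient lists of a combination. -/
def combR (C : ℕ → Chart) (n : List ℕ) : List Term → Rep 5
  | [] => cst 5 0
  | t :: ts => add 5 (mul 5 (cst 5 (vz t.1)) (ev5R (pt.degOf n)
      (fun i => lin 5 i (C i).a (C i).b) (fun i => lin 5 i (C i).c (C i).d) t.2.2))
      (combR C n ts)

theorem pt_eq_base (K : ℕ) (n : List ℕ) : ∀ i < 5, (pt K n i : ℤ) = base K 5 (pt.degOf n) i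
  | 0, _ | 1, _ | 2, _ | 3, _ => by simp [pt, base, Nat.pow_eq]
  | 4, _ => by simp [pt, base, width, Nat.pow_eq]
  | i + 5, h => absurd h (by omega)

theorem vz_cN (c : Chart) (T : ℕ) : vz (cN c T) = c.a + c.b * T := by
  simp only [vz, cN, Nat.add_eq, Nat.mul_eq]
  push_cast
  have h1 := Int.toNat_sub_toNat_neg c.a
  have h2 := Int.toNat_sub_toNat_neg c.b
  linear_combination h1 + (T : ℤ) * h2

theorem cD_eq {c : Chart} (h1 : 0 ≤ c.c) (h2 : 0 ≤ c.d) (T : ℕ) :
    (cD c T : ℤ) = c.c + c.d * T := by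
  simp only [cD, Nat.add_eq, Nat.mul_eq]
  push_cast
  rw [Int.toNat_of_nonneg h1, Int.toNat_of_nonneg h2]

theorem ev5V_congr {R : Type} [CommRing R] {n : ℕ → ℕ} {N N' D D' : ℕ → R}
    (h : ∀ i < 5, N i = N' i ∧ D i = D' i) (p : Q5) : ev5V n N D p = ev5V n N' D' p := by
  simp only [ev5V, h 0 (by norm_num), h 1 (by norm_num), h 2 (by norm_num), h 3 (by norm_num),
    h 4 (by norm_num)]

theorem vz_comb {C : ℕ → Chart} (hC : ∀ i < 5, 0 ≤ (C i).c ∧ 0 ≤ (C i).d) (K : ℕ) (n : List ℕ) :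
    ∀ ts : List Term, vz (comb C K n ts) = ev 5 (base K 5 (pt.degOf n)) (combR C n ts)
  | [] => by simp [comb, combR, vz, ev_cst]
  | t :: ts => by
    have h : vz (evAt C K n t.2.2) = ev 5 (base K 5 (pt.degOf n)) (ev5R (pt.degOf n)
        (fun i => lin 5 i (C i).a (C i).b) (fun i => lin 5 i (C i).c (C i).d) t.2.2) := by
      rw [evAt, vz_ev5, ev_ev5R]
      refine ev5V_congr (fun i hi => ?_) _
      simp only [ev_lin 5 i _ _ _ hi, vz_cN, cD_eq (hC i hi).1 (hC i hi).2, pt_eq_base K n i hi,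
        Int.cast_id, and_self]
    simp only [combR, ev_add, ev_mul, ev_cst, Int.cast_id, ← h, ← vz_comb hC K n ts]
    simp only [comb, vz, Nat.add_eq, Nat.mul_eq]
    push_cast; ring

theorem nrm_combR {C : ℕ → Chart} {n : List ℕ} : ∀ {ts : List Term},
    (∀ t ∈ ts, wf n t.2 = true) → nrm 5 (combR C n ts) ≤
      weight ts * (cM (C 0) ^ pt.degOf n 0 * cM (C 1) ^ pt.degOf n 1 *
        cM (C 2) ^ pt.degOf n 2 * cM (C 3) ^ pt.degOf n 3 * cM (C 4) ^ pt.degOf n 4)
  | [], _ => by simp [combR, nrm_cst]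
  | t :: ts, h => by
    have ht := h t List.mem_cons_self
    simp only [wf, Bool.and_eq_true, Nat.ble_eq] at ht
    simp only [combR, weight]
    rw [add_mul]
    refine (nrm_add 5 _ _).trans (Nat.add_le_add ?_
      (nrm_combR fun b hb => h b (List.mem_cons_of_mem _ hb)))
    refine (nrm_mul 5 _ _).trans ?_
    rw [nrm_cst, mul_assoc]
    refine Nat.mul_le_mul (by simp only [vz]; omega) ?_
    refine (nrm_ev5R ht.1 (M := fun i => cM (C i))
      (fun i => (nrm_lin 5 i _ _).trans (le_max_left _ _))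
      (fun i => (nrm_lin 5 i _ _).trans (le_max_right _ _))).trans ?_
    rw [mul_comm]
    exact Nat.mul_le_mul_right _ ht.2

theorem fits_combR {C : ℕ → Chart} {n : List ℕ} : ∀ {ts : List Term},
    (∀ t ∈ ts, wf n t.2 = true) → Fits 5 (pt.degOf n) (combR C n ts)
  | [], _ => fits_cst 5 _ 0
  | t :: ts, h => by
    have ht := h t List.mem_cons_self
    simp only [wf, Bool.and_eq_true] at ht
    refine fits_add 5 (fits_mono 5 (fun j => ?_) (fits_mul 5 (fits_cst 5 (fun _ => 0) _)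
      (fits_ev5R ht.1 (fun i => fits_lin 5 i _ _) (fun i => fits_lin 5 i _ _))))
      (fits_combR fun b hb => h b (List.mem_cons_of_mem _ hb))
    match j with
    | 0 | 1 | 2 | 3 | 4 => simp [unit]
    | j + 5 => simp [unit]

theorem ev_combR {C : ℕ → Chart} {n : List ℕ} (s x : ℕ → ℝ)
    (hs : ∀ i < 5, ((C i).a : ℝ) + (C i).b * s i = x i * ((C i).c + (C i).d * s i)) :
    ∀ {ts : List Term}, (∀ t ∈ ts, wf n t.2 = true) →
      ev 5 s (combR C n ts) = ((((C 0).c : ℝ) + (C 0).d * s 0) ^ pt.degOf n 0 *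
        (((C 1).c : ℝ) + (C 1).d * s 1) ^ pt.degOf n 1 *
        (((C 2).c : ℝ) + (C 2).d * s 2) ^ pt.degOf n 2 *
        (((C 3).c : ℝ) + (C 3).d * s 3) ^ pt.degOf n 3 *
        (((C 4).c : ℝ) + (C 4).d * s 4) ^ pt.degOf n 4) * combVal x ts
  | [], _ => by simp [combR, combVal, ev_cst]
  | t :: ts, h => by
    have ht := h t List.mem_cons_self
    simp only [wf, Bool.and_eq_true] at ht
    simp only [combR, combVal, ev_add, ev_mul, ev_cst, ev_ev5R,
      ev_combR s x hs fun b hb => h b (List.mem_cons_of_mem _ hb)]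
    rw [ev5V_eq ht.1 x _ _ (fun i hi => by simp only [ev_lin 5 i _ _ _ hi]; exact hs i hi)]
    simp only [ev_lin 5 _ s _ _ (by norm_num : (0 : ℕ) < 5),
      ev_lin 5 1 s _ _ (by norm_num), ev_lin 5 2 s _ _ (by norm_num),
      ev_lin 5 3 s _ _ (by norm_num), ev_lin 5 4 s _ _ (by norm_num), val]
    ring

/-- **A checked combination is nonnegative on the box.** -/
theorem nonneg_of_check {C : ℕ → Chart} {K : ℕ} {n : List ℕ} {ts : List Term}
    (h : check C K n ts = true) (hw : ∀ t ∈ ts, wf n t.2 = true) {x : ℕ → ℝ}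
    (hx : ∀ i < 5, ∃ t : ℝ, 0 ≤ t ∧ 0 < ((C i).c : ℝ) + (C i).d * t ∧
      ((C i).a : ℝ) + (C i).b * t = x i * (((C i).c : ℝ) + (C i).d * t)) :
    0 ≤ combVal x ts := by
  simp only [check, Bool.and_eq_true, decide_eq_true_eq, List.all_eq_true, List.mem_range,
    Nat.ble_eq] at h
  obtain ⟨⟨⟨⟨hK, hC⟩, hb⟩, hv⟩, hm⟩ := h
  obtain ⟨b1, b2⟩ := testBit_of_maskDigits hK hm
  have he : ev 5 (base K 5 (pt.degOf n)) (combR C n ts) =
      ((Nat.sub (comb C K n ts).1 (comb C K n ts).2 : ℕ) : ℤ) := by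
    rw [← vz_comb hC, vz, Nat.sub_eq, Nat.cast_sub hv]
  have hn := nonneg_of_digits 5 K (pt.degOf n) _ _ hK (fits_combR hw)
    (lt_of_le_of_lt (Nat.mul_le_mul_left 2 (nrm_combR hw)) (by omega)) he
    (digits_of_bits 5 K (pt.degOf n) _ hK b1 b2)
  choose t ht using hx
  set s : ℕ → ℝ := fun i => if hi : i < 5 then t i hi else 0 with hs
  have hsv : ∀ i (hi : i < 5), s i = t i hi := fun i hi => by simp [hs, hi]
  have hs0 : ∀ i, 0 ≤ s i := fun i => by
    by_cases hi : i < 5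
    · rw [hsv i hi]; exact (ht i hi).1
    · simp [hs, hi]
  have h2 := ev_nonneg 5 hs0 hn
  have hp : ∀ i < 5, 0 < ((C i).c : ℝ) + (C i).d * s i := fun i hi => by
    rw [hsv i hi]; exact (ht i hi).2.1
  rw [ev_combR s x (fun i hi => by rw [hsv i hi]; exact (ht i hi).2.2) hw] at h2
  refine nonneg_of_mul_nonneg_right h2 ?_
  have := hp 0 (by norm_num); have := hp 1 (by norm_num); have := hp 2 (by norm_num)
  have := hp 3 (by norm_num); have := hp 4 (by norm_num)
  positivity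

end Vale.Agent.P100.Pack.Dense
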