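import Mathlib
import Vale.Agent.P100.Pack.FastFour

/-!
# The test on very long packed integers

The kernel refuses powers with more than `2 ^ 24` bits but shifts and multiplies them. `checkShift`
is `checkFour` with shifts and repeated products in place of the large powers.
-/

namespace Vale.Agent.P100.Pack

/-- `2 ^ k` by a shift. -/
def twoPow (k : ℕ) : ℕ := Nat.shiftLeft 1 k

theorem twoPow_eq (k : ℕ) : twoPow k = 2 ^ k := by
  show 1 <<< k = 2 ^ k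
  rw [Nat.shiftLeft_eq, one_mul]

/-- `b ^ k` by products. -/
noncomputable def powMul (b k : ℕ) : ℕ :=
  Nat.rec (motive := fun _ => ℕ) 1 (fun _ r => Nat.mul r b) k

theorem powMul_eq (b : ℕ) : ∀ k, powMul b k = b ^ k
  | 0 => rfl
  | k + 1 => by
    show powMul b k * b = _
    rw [powMul_eq b k, pow_succ]

/-- The mask test by shifts. -/
def maskShift (K n Z : ℕ) : Bool :=
  Nat.blt Z (twoPow (Nat.mul K n)) &&
    Nat.beq (Z &&& Nat.mul (twoPow (K - 1))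
      (Nat.div (Nat.sub (twoPow (Nat.mul K n)) 1) (Nat.sub (twoPow K) 1))) 0

theorem maskShift_eq (K n Z : ℕ) : maskShift K n Z = maskDigits K n Z := by
  simp only [maskShift, maskDigits, repunit, twoPow_eq, Nat.mul_eq, Nat.sub_eq]
  rfl

/-- The value brought to higher degrees, by products. -/
noncomputable def Res4.liftShift (P : Pt4) (r : Res4) (a b c e : ℕ) : ℤ :=
  cond (Nat.beq a r.n₀ && (Nat.beq b r.n₁ && (Nat.beq c r.n₂ && Nat.beq e r.n₃))) r.val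
    (Int.mul r.val (Int.ofNat (Nat.mul (powMul P.p₀ (Nat.sub a r.n₀))
      (Nat.mul (powMul P.p₁ (Nat.sub b r.n₁))
        (Nat.mul (powMul P.p₂ (Nat.sub c r.n₂)) (powMul P.p₃ (Nat.sub e r.n₃)))))))

theorem Res4.liftShift_eq (P : Pt4) (r : Res4) (a b c e : ℕ) :
    r.liftShift P a b c e = r.lift P a b c e := by
  simp only [liftShift, lift, powMul_eq, Nat.pow_eq]

/-- One pass. -/
noncomputable def evalShift (P : Pt4) (e : Ex) : Res4 :=
  Ex.rec (motive := fun _ => Res4)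
    (fun i => Nat.casesOn i ⟨P.x₀, P.v₀, 1, 0, 0, 0⟩
      fun i => Nat.casesOn i ⟨P.x₁, P.v₁, 0, 1, 0, 0⟩
      fun i => Nat.casesOn i ⟨P.x₂, P.v₂, 0, 0, 1, 0⟩ fun _ => ⟨P.x₃, P.v₃, 0, 0, 0, 1⟩)
    (fun z => ⟨z, Int.natAbs z, 0, 0, 0, 0⟩)
    (fun _ _ p q => ⟨Int.add
        (p.liftShift P (nmax p.n₀ q.n₀) (nmax p.n₁ q.n₁) (nmax p.n₂ q.n₂) (nmax p.n₃ q.n₃))
        (q.liftShift P (nmax p.n₀ q.n₀) (nmax p.n₁ q.n₁) (nmax p.n₂ q.n₂) (nmax p.n₃ q.n₃)),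
      Nat.add (p.liftB P (nmax p.n₀ q.n₀) (nmax p.n₁ q.n₁) (nmax p.n₂ q.n₂) (nmax p.n₃ q.n₃))
        (q.liftB P (nmax p.n₀ q.n₀) (nmax p.n₁ q.n₁) (nmax p.n₂ q.n₂) (nmax p.n₃ q.n₃)),
      nmax p.n₀ q.n₀, nmax p.n₁ q.n₁, nmax p.n₂ q.n₂, nmax p.n₃ q.n₃⟩)
    (fun _ _ p q => ⟨Int.sub
        (p.liftShift P (nmax p.n₀ q.n₀) (nmax p.n₁ q.n₁) (nmax p.n₂ q.n₂) (nmax p.n₃ q.n₃))
        (q.liftShift P (nmax p.n₀ q.n₀) (nmax p.n₁ q.n₁) (nmax p.n₂ q.n₂) (nmax p.n₃ q.n₃)),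
      Nat.add (p.liftB P (nmax p.n₀ q.n₀) (nmax p.n₁ q.n₁) (nmax p.n₂ q.n₂) (nmax p.n₃ q.n₃))
        (q.liftB P (nmax p.n₀ q.n₀) (nmax p.n₁ q.n₁) (nmax p.n₂ q.n₂) (nmax p.n₃ q.n₃)),
      nmax p.n₀ q.n₀, nmax p.n₁ q.n₁, nmax p.n₂ q.n₂, nmax p.n₃ q.n₃⟩)
    (fun _ _ p q => ⟨Int.mul p.val q.val, Nat.mul p.bnd q.bnd, Nat.add p.n₀ q.n₀,
      Nat.add p.n₁ q.n₁, Nat.add p.n₂ q.n₂, Nat.add p.n₃ q.n₃⟩)
    (fun _ k p => ⟨p.val ^ k, Nat.pow p.bnd k, Nat.mul k p.n₀, Nat.mul k p.n₁, Nat.mul k p.n₂,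
      Nat.mul k p.n₃⟩)
    e

theorem evalShift_eq (P : Pt4) (e : Ex) : evalShift P e = eval4 P e := by
  simp only [evalShift, eval4, Res4.liftShift_eq]

/-- The evaluation data, by shifts. -/
def ptShift (C : ℕ → Chart) (K b c d : ℕ) : Pt4 :=
  let B₀ : ℤ := Int.ofNat (twoPow (Nat.mul K (Nat.mul (b + 1) (Nat.mul (c + 1) (d + 1)))))
  let B₁ : ℤ := Int.ofNat (twoPow (Nat.mul K (Nat.mul (c + 1) (d + 1))))
  let B₂ : ℤ := Int.ofNat (twoPow (Nat.mul K (d + 1)))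
  let B₃ : ℤ := Int.ofNat (twoPow K)
  ⟨(C 0).a + (C 0).b * B₀, (C 1).a + (C 1).b * B₁, (C 2).a + (C 2).b * B₂, (C 3).a + (C 3).b * B₃,
    ((C 0).c + (C 0).d * B₀).toNat, ((C 1).c + (C 1).d * B₁).toNat,
    ((C 2).c + (C 2).d * B₂).toNat, ((C 3).c + (C 3).d * B₃).toNat,
    (C 0).c.natAbs + (C 0).d.natAbs, (C 1).c.natAbs + (C 1).d.natAbs,
    (C 2).c.natAbs + (C 2).d.natAbs, (C 3).c.natAbs + (C 3).d.natAbs,
    (C 0).a.natAbs + (C 0).b.natAbs, (C 1).a.natAbs + (C 1).b.natAbs,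
    (C 2).a.natAbs + (C 2).b.natAbs, (C 3).a.natAbs + (C 3).b.natAbs⟩

theorem ptShift_eq (C : ℕ → Chart) (K a b c d : ℕ) :
    ptShift C K b c d = pt4 C K (deg4 a b c d) := by
  simp [ptShift, pt4, base, width, deg4, twoPow_eq, Int.ofNat_eq_natCast]

/-- `checkFour` without large powers. -/
noncomputable def checkShift (C : ℕ → Chart) (K a b c d : ℕ) (e : Ex) : Bool :=
  let P := ptShift C K b c d
  chartsOk C && e.ok 4 && decide (1 ≤ K) &&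
    (Nat.beq (evalShift P e).n₀ a && Nat.beq (evalShift P e).n₁ b &&
      Nat.beq (evalShift P e).n₂ c && Nat.beq (evalShift P e).n₃ d) &&
    Nat.blt (Nat.mul 2 (evalShift P e).bnd) (Nat.pow 2 K) &&
    decide (0 ≤ (evalShift P e).val) &&
    maskShift K ((a + 1) * ((b + 1) * ((c + 1) * (d + 1)))) (evalShift P e).val.toNat

theorem checkShift_eq (C : ℕ → Chart) (K a b c d : ℕ) (e : Ex) :
    checkShift C K a b c d e = checkFour C K a b c d e := by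
  simp only [checkShift, checkFour, evalShift_eq, maskShift_eq, ptShift_eq C K a b c d,
    width_four, deg4, mul_one]

/-- An expression passing the test is nonnegative on the box. -/
theorem nonneg_of_checkShift {C : ℕ → Chart} {K a b c d : ℕ} {e : Ex}
    (h : checkShift C K a b c d e = true) {x : ℕ → ℝ}
    (hx : ∀ i < 4, ∃ t : ℝ, 0 ≤ t ∧ 0 < ((C i).c : ℝ) + (C i).d * t ∧
      ((C i).a : ℝ) + (C i).b * t = x i * (((C i).c : ℝ) + (C i).d * t)) :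
    0 ≤ e.eval x :=
  nonneg_of_checkFour (checkShift_eq C K a b c d e ▸ h) hx

end Vale.Agent.P100.Pack
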